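import Crest.Agent.X212.Kof81.Two
import Crest.Agent.X212.Dead36.Main
import Crest.Agent.X212.Mcg32.LinCl
import Crest.Agent.X212.Loc8.Ws

/-!
# Row 212, KIT (helper81): the class of jobs over scenes; faces at lens walls; `KitStmt`
-/

set_option autoImplicit false
set_option linter.unusedSectionVars false
noncomputable section
open scoped Manifold ContDiff Topology
open Set Function Filter

namespace Crest.Agent.X212.Kof81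
open An An.Job M G75 Ins26 Jb7 Nd18
open Rf65 hiding Fa WallL

theorem ev_of {P : ℝ → Prop} (k : ∃ δ₀ > 0, ∀ δ ∈ Ioc 0 δ₀, P δ) : ∀ᶠ δ in 𝓝[>] 0, P δ :=
  let ⟨_, h0, h1⟩ := k; mem_of_superset (Ioc_mem_nhdsGT h0) h1

variable {κ lam : Type} [Fintype κ] [Fintype lam] [DecidableEq lam] (Lm : LM κ lam)

/-- a property of all jobs over scenes -/
def AllS (P : ∀ {S : Scene Lm} {D : S.Dat} {i Wi r n}
    (_ : Job Wi (D.Λ i) (S.A ⊕ Unit) S.ls r n), Prop) : Prop :=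
  ∀ (S : Scene Lm) (D : S.Dat) i Wi r n (J : Job Wi (D.Λ i) (S.A ⊕ Unit) S.ls r n), S.OK → J.OK → P J

/-- a property of the jobs of families -/
def AllF (P : ∀ {S : Scene Lm} {D : S.Dat} {i Wi r n}
    (_ : Job Wi (D.Λ i) (S.A ⊕ Unit) S.ls r n) (_ : ℤ), Prop) : Prop :=
  ∀ (S : Scene Lm) (D : S.Dat) i Wi r n (J : Job Wi (D.Λ i) (S.A ⊕ Unit) S.ls r n) j n₀ T,
    GX J ∅ none j n₀ T → J.𝒦.Nonempty → P J n₀

/-- the leaves of the faces -/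
structure FL : Prop where
  spl : AllS Lm fun J => ∀ c, Spl J c
  dec : AllS Lm fun J => ∀ c, Dec J c
  prt : AllS Lm fun J => ∀ c, Prt0 J c
  sym : AllS Lm fun J => ∀ c, Sym93.Sym J c
  add : AllS Lm fun J => ∀ c, Rf65.Add J c
  wl : AllS Lm fun J => ∀ a, WlStmt (J.xs a).D
  ccl : AllS Lm fun J => ∀ c σ, PJ J c → σ ∈ J.𝒦 → Ccl J c σ
  iso : AllS Lm fun J => ∀ c, IsoL J c
  eps : AllS Lm fun J => Eps J
  st1 : AllS Lm fun J => ∀ c δ sh σ Adm n₀, Stra1 J c δ sh σ Adm n₀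
  st2 : AllS Lm fun J => ∀ c δ sh σ Adm n₀ Tr, Stra2 J c δ sh σ Adm n₀ Tr
  wall : AllS Lm fun J => ∀ a, Loc8.WallS J a
  ly : LyStmt Lm
  lix : LixStmt Lm
  cok : CokStmt Lm
  uq : UqStmt Lm
  nt : NtStmt Lm
  kl : KlStmt Lm

/-- **all leaves of `KitStmt`** -/
structure KLv : Prop extends FL Lm where
  fin : AllF Lm fun J _ => Sml fun Adm => ∀ σ ∈ J.𝒦, ∀ c, J.FinE σ c Adm
  mdl : AllF Lm fun J n₀ => MdlL J n₀
  comp : AllF Lm fun J _ => Sml J.Comp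
  gen : AllF Lm fun J _ => GenL J
  frx : AllF Lm fun J n₀ => FrxL J n₀
  wk : AllF Lm fun J _ => WkL J
  gl : AllF Lm fun J _ => GlL J

variable {Lm} {S : Scene Lm} {D : S.Dat} {i : S.L} {Wi : Type} {r n : ℕ}
  {J : Job Wi (D.Λ i) (S.A ⊕ Unit) S.ls r n} {X : Finset S.A} {a₀ : Option S.A} {j : ℕ} {n₀ : ℤ}
  {T : ℝ} {c : S.M.Cl}

/-- only lens walls are broken along cylinders -/
def Ln (a₀ : Option S.A) (c : S.M.Cl) : Prop := (∀ a ∈ a₀, a ∉ c.1) ∧ cylW c ⊆ S.ls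

variable (J) in
/-- the type of the face objects at lens walls -/
def TL (δ : ℝ) (sh : Set (S.A ⊕ Unit)) (n₀ : ℤ) : Ty J := fun σ c q y =>
  ∃ x, TyF J n₀ σ c δ sh q y x ∧ y.kap (D.W.pc c (hp x false)) = 1 / 4

theorem hd_mem (G : GX J X a₀ j n₀ T) {a : S.A ⊕ Unit} {x : S.A} (e : J.hd a = some x) :
    x ∈ hard S X ∨ x ∈ a₀ := by
  rw [G.hd] at e
  rcases a with a | a
  · by_cases k : a ∈ hard S X
    · simp only [Sum.elim_inl, if_pos k, Option.some.injEq] at e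
      exact .inl (e ▸ k)
    · simp [if_neg k] at e
  · exact .inr e

theorem sol_mem (G : GX J X a₀ j n₀ T) {σ q} (hσ : σ ∈ J.𝒦) {y : J.Obc c} (hy : Sol σ q y)
    {x : S.A} (hx : x ∈ c.1) : x ∈ hard S X ∨ x ∈ a₀ :=
  let ⟨_, e, _⟩ := G.ok.inf σ hσ _ (J.cl_dom hy.cell) x (hy.inf.ge hx); hd_mem G e

theorem ln_of (k : ∀ x ∈ c.1, x ∈ hard S ∅ ∨ x ∈ (none : Option S.A)) : Ln none c :=
  ⟨nofun, fun x hx => by
    rcases k x hx.1 with (e | e | e) | e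
    exacts [(hx.2 e).elim, e, absurd e (by simp), absurd e (by simp)]⟩

/-- the jobs of a family -/
theorem gx {N : ℕ} {F : Fam S j N} (hS : S.OK) (hF : F.OK T) (hn : (F.𝒦 i).Nonempty) :
    GX (F.job i) F.X none j F.n₀ T where
  sc := hS
  ok := hF.ok i hn
  loc := ⟨fun _ hσ _ _ _ H a b => pok_prt (hF.ok i hn) hσ (hF.loc i hn) a b H, (hF.loc i hn).bas,
    (hF.loc i hn).nb⟩
  r := rfl
  k := rfl
  ct := rfl
  nb := rfl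
  hd := rfl
  fz _ e := nomatch e
  nil _ _ := ⟨Ink3.nd0_nil, rfl⟩
  ν a s := by
    dsimp only
    split_ifs
    exacts [⟨Real.smoothTransition.nonneg _, Real.smoothTransition.le_one _⟩, ⟨le_rfl, zero_le_one⟩]
  cell σ' e := let ⟨τ, o, k1, k2, σ, k3, k4, k5, k6⟩ := hF.cell i σ' e
    ⟨τ, o, σ, k1, k4, k3, k5, k2, k6⟩
  par τ o e s hs := by
    refine ⟨fun a _ => ((hF.ok i hn).par _ e s ((F.job i).cl_dom hs)).1 a, fun a ha => ?_,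
      fun a h1 h2 => ?_⟩
    · have : ((F.job i).Θ s).2 a = F.Tf a (s (.inr ())) := if_pos (Finset.mem_coe.2 ha)
      exact this ▸ Ico_subset_Icc_self (hF.Tf a ha _)
    · have : s (.inl a) = 0 := hs.1 _ false (if_neg h1)
      refine (if_neg (mt Finset.mem_coe.1 h2)).trans ?_
      simp [rho, this]
  rich σ' a s b c d _ := hF.rich i σ' a s b c d
  van := hF.van i

namespace FL
variable (L : FL Lm)
include L

theorem an0 (hS : S.OK) (hJ : J.OK) (hP : PJ J c) (hn : ∀ l, IsPreconnected (J.nb l)) :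
    ∀ᶠ δ in 𝓝[>] 0, An0 J c δ := by
  obtain ⟨d, hd, k⟩ := L.dec _ _ _ _ _ _ J hS hJ c hJ hP
  filter_upwards [ev_of (L.spl _ _ _ _ _ _ J hS hJ c hJ hP),
    ev_of (L.prt _ _ _ _ _ _ J hS hJ c hJ hP hn), Ioc_mem_nhdsGT hd] with δ a b e
  refine ⟨a, fun σ p q y u v w => ?_, b, L.sym _ _ _ _ _ _ J hS hJ c⟩
  obtain ⟨k1, k2⟩ := k σ p q y u v w
  exact ⟨{ k1 with lim := fun l hl ha => (k1.lim l hl ha).imp fun _ t => ⟨e.2.trans_lt t.1, t.2⟩ },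
    fun l hl ha => (k2 l hl ha).imp fun _ t => ⟨e.2.trans_lt t.1, t.2⟩⟩

theorem anH (G : GX J X a₀ j n₀ T) (hP : PJ J c)
    (hab : ∀ a ∈ cylW c, ∀ β, Rdc90.Bs (J.xs a).D β → dz (J.xs a).D β ≠ 0) :
    ∀ᶠ δ in 𝓝[>] 0, ∀ σ ∈ J.𝒦, AnH J c δ (shX S X) σ := by
  filter_upwards [L.an0 G.sc G.ok hP G.loc.nb, L.an0 (J := J.noz) G.sc G.ok.noz ⟨hP.nil, hP.py⟩
    G.loc.nb, self_mem_nhdsWithin] with δ a b e σ hσ
  exact ⟨a, e, G.ok, G.loc, by rw [G.r]; omega, hP, b, L.wl _ _ _ _ _ _ J G.sc G.ok, hab,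
    Dead36.dead G.ok c, Mcg32.linCl G.ok c, L.ccl _ _ _ _ _ _ J G.sc G.ok c σ hP hσ,
    L.iso _ _ _ _ _ _ J G.sc G.ok c, hσ⟩

theorem pj (G : GX J X a₀ j n₀ T) (hc : Ln a₀ c) : PJ J c :=
  ⟨fun a ha => G.nil a fun e => hc.1 a e ha.1,
    fun a ha => ⟨0, (L.ly _ _ _ _ _ _ J G.sc G.ok a (hc.2 ha)).1⟩⟩

variable (S) in
/-- the inputs of the strata at lens faces -/
theorem h2 : ∃ K₀ : ℝ, ∀ᶠ T in 𝓝[<] (1 : ℝ), ∀ j n₀ (D : S.Dat) i Wi r n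
    (J : Job Wi (D.Λ i) (S.A ⊕ Unit) S.ls r n) X a₀ (c : S.M.Cl), GX J X a₀ j n₀ T → Ln a₀ c →
    (Sml fun Adm => NK J Adm K₀ ∧ ∀ σ ∈ J.𝒦, J.FinE σ c Adm) → ∀ᶠ δ in 𝓝[>] 0, ∀ σ ∈ J.𝒦,
      AnH J c δ (shX S X) σ ∧ Sml fun Adm => H2 J c δ (shX S X) σ Adm n₀ (fun _ _ => True) ∧
        Q4 J c δ Adm (shX S X) σ n₀ := by
  obtain ⟨K₀, ε, hε, k⟩ := L.kl S
  refine ⟨K₀, k.mono fun T k j n₀ D i Wi r n J X a₀ c G hc hs => ?_⟩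
  have hP := L.pj G hc
  filter_upwards [L.anH G hP fun a ha => (L.ly _ _ _ _ _ _ J G.sc G.ok a (hc.2 ha)).2,
    ev_of ((L.add _ _ _ _ _ _ J G.sc G.ok c).at J c G.ok hP),
    ev_of (L.lix _ _ _ _ _ _ J X a₀ j n₀ T c G hc.1 hP),
    ev_of (L.cok _ _ _ _ _ _ J X a₀ j n₀ T c G hc.1 hP),
    ev_of (L.uq _ _ _ _ _ _ J X a₀ j n₀ T c G hc.1 hP),
    ev_of (L.nt _ _ _ _ _ _ J X a₀ j n₀ T c G hc.1 hP)] with δ a1 a2 a3 a4 a5 a6 σ hσ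
  have a := a1 σ hσ
  refine ⟨a, (hs.and ((L.eps _ _ _ _ _ _ J G.sc G.ok G.ok G.loc.bas ε hε).and
    (a3.and (a4.and (a5.and a6))))).mono fun Adm ⟨⟨b1, b2⟩, b3, b4, b5, b6, b7⟩ => ?_⟩
  have lx := b4 a.spl a.dec (a2 a.spl)
  obtain ⟨c1, c2, c3, c4⟩ := k j n₀ D i Wi r n J X a₀ c δ σ Adm G hc.1 hc.2 a (a2 a.spl) lx b3 b1
  have h1 : H1 J c δ (shX S X) σ Adm n₀ := ⟨a, b2 σ hσ, c1, c2, c3⟩
  refine ⟨⟨h1, b5 σ hc.2 h1 lx c4, b6 σ hc.2 h1 lx c4, b7 σ hc.2 h1 lx c4,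
    fun G' g1 g2 => ⟨G', g1, fun q hq y x hy f => ⟨?_, trivial⟩⟩⟩, c4⟩
  obtain ⟨x', e1, e2⟩ := (g2 q hq).1 y hy fun t =>
    singleton_ne_empty x (f.1.2.1.symm.trans (congrArg Subtype.val t.1))
  obtain rfl : x' = x := singleton_injective (e1.2.1.symm.trans f.1.2.1)
  exact (c4 q y x' (g1.le q hq) hy f (e2 f.2.1).2).2

variable (S) in
/-- **the faces at lens walls** -/
theorem lens : ∃ K₀ : ℝ, ∀ᶠ T in 𝓝[<] (1 : ℝ), ∀ j n₀ (D : S.Dat) i Wi r n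
    (J : Job Wi (D.Λ i) (S.A ⊕ Unit) S.ls r n) X a₀, GX J X a₀ j n₀ T →
    (∀ c, Ln a₀ c → Sml fun Adm => NK J Adm K₀ ∧ ∀ σ ∈ J.𝒦, J.FinE σ c Adm) →
    ∀ᶠ δ in 𝓝[>] 0, ∀ σ ∈ J.𝒦, (∀ c, Ln a₀ c → FaceL J n₀ (TL J δ (shX S X) n₀) σ c) ∧
      ∀ a ∈ J.wa σ, Ln a₀ (J.cf a) → WallL J n₀ (TL J δ (shX S X) n₀) σ a := by
  obtain ⟨K₀, k⟩ := L.h2 S
  refine ⟨K₀, k.mono fun T k j n₀ D i Wi r n J X a₀ G hs => ?_⟩
  have : Finite S.M.Cl := Subtype.finite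
  filter_upwards [eventually_all.2 fun c => eventually_imp_distrib_left.2 fun hc : Ln a₀ c =>
    k j n₀ D i Wi r n J X a₀ c G hc (hs c hc), eventually_all.2 fun a =>
    eventually_imp_distrib_left.2 fun hc : Ln a₀ (J.cf a) =>
      ev_of (L.wall _ _ _ _ _ _ J G.sc G.ok a G.ok (L.pj G hc) (.inl fun x hx =>
        (L.ly _ _ _ _ _ _ J G.sc G.ok x (hc.2 hx)).1))] with δ k1 k2 σ hσ
  exact ⟨fun c hc => .of (fun _ => L.st1 _ _ _ _ _ _ J G.sc G.ok c δ _ σ _ n₀)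
    (fun _ => L.st2 _ _ _ _ _ _ J G.sc G.ok c δ _ σ _ n₀ _) ((k1 c hc σ hσ).2.mono
      fun Adm t _ => ⟨t.1, fun q y x a b e _ => ⟨x, e, (t.2 q y x a b e.fa e.ro).1⟩⟩),
    fun a ha hc => .of (k1 _ hc σ hσ).1 D.nrm (D.lnrm i) ha (k2 a hc _ σ n₀ (Loc8.sh_of G))
      fun _ _ e => e.imp fun _ => And.left⟩

end FL

variable (S) in
/-- **kits of the jobs of families, with the types of the faces** -/
theorem KLv.gv (L : KLv Lm) : ∀ᶠ T in 𝓝[<] (1 : ℝ), ∀ j n₀ (D : S.Dat) i Wi r n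
    (J : Job Wi (D.Λ i) (S.A ⊕ Unit) S.ls r n), GX J ∅ none j n₀ T → J.𝒦.Nonempty → ∃ δ,
    GV fun q => ∃ K : J.Kit, K.Ax ∧ K.GG q ∧ K.n₀ = n₀ ∧ TyAt J n₀ (TL J δ (shX S ∅) n₀) q := by
  obtain ⟨K₀, k⟩ := L.lens S
  refine k.mono fun T k j n₀ D i Wi r n J G hn => ?_
  obtain ⟨δ, k⟩ := (k j n₀ D i Wi r n J ∅ none G fun c _ =>
    (L.fin _ _ _ _ _ _ J j n₀ T G hn).mono fun Adm e => ⟨fun _ _ _ _ _ _ _ _ _ _ _ _ ⟨a, _, t⟩ =>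
      (t (G.nil a nofun)).elim, fun σ hσ => e σ hσ c⟩).exists
  refine ⟨δ, kit2 G.ok ⟨L.mdl _ _ _ _ _ _ J j n₀ T G hn, L.comp _ _ _ _ _ _ J j n₀ T G hn,
    L.gen _ _ _ _ _ _ J j n₀ T G hn, L.frx _ _ _ _ _ _ J j n₀ T G hn, L.wk _ _ _ _ _ _ J j n₀ T G hn,
    L.gl _ _ _ _ _ _ J j n₀ T G hn⟩ hn (fun σ hσ c => ?_) fun σ hσ a ha =>
      (k σ hσ).2 a ha (ln_of fun _ => hd_mem G)⟩
  by_cases e : Ln none c
  · exact (k σ hσ).1 c e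
  · exact (StrL.of_not fun _ _ hy => e (ln_of fun _ => sol_mem G hσ hy)).face

/-- **KIT** -/
theorem KLv.kit (L : KLv Lm) : KitStmt Lm := fun S j _ hS => (L.gv S).mono fun _ k F hF hX i hn =>
  let ⟨_, e⟩ := k j F.n₀ F.D i _ _ _ (F.job i) (hX ▸ gx hS hF hn) hn
  e.mono fun _ ⟨K, a, b, d, _⟩ => ⟨K, a, b, d⟩

end Crest.Agent.X212.Kof81
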