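import Crest.Agent.X212.Kof81.Cls
import Crest.Agent.X212.Lns95.Lf

/-!
# Row 212, KIT (helper81): the type of the face solutions at lens walls
-/

set_option autoImplicit false
noncomputable section
open Set

namespace Crest.Agent.X212.Kof81
open An G75 Rf65

variable {κ lam : Type} [Fintype κ] [Fintype lam] [DecidableEq lam] {Lm : LM κ lam}

/-- **TYPE** -/
theorem KLv.type (L : KLv Lm) : Lns95.TypeStmt Lm := fun S j _ hS => (L.gv S).mono
  fun _ k F hF hX i l τ o hσ _ _ =>
  let ⟨_, e⟩ := k j F.n₀ F.D i _ _ _ (F.job i) (hX ▸ gx hS hF ⟨_, hσ⟩) ⟨_, hσ⟩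
  e.mono fun q ⟨_, _, _, _, t⟩ y hy _ ρ h1 h2 => by
    have hm : l.1 ∈ ((F.job i).cf (.inl l)).1 := if_pos (.inr (.inl l.2))
    obtain ⟨x, k1, k2⟩ := (t _ hσ _ y hy fun e => (congrArg Subtype.val e.1).le hm).2.2.2.2
    have hc := k1.fa.1.2.1
    obtain rfl : l.1 = x := hc.le hm
    obtain rfl : ρ = hp l.1 false := funext fun a => by
      by_cases e : a = l
      · simp [hp, e, h2]
      · simpa [hp, e] using by_contra fun t => e (hc.le (h1.bd_subset t))
    exact ⟨k1.fa.2.2, k2⟩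

end Crest.Agent.X212.Kof81
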