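import Crest.Agent.X212.Kof81.Gp
import Crest.Agent.X212.Kof81.Typ
import Crest.Agent.X212.Kit16.Plug
import Crest.Agent.X212.Nck90.Xc
import Crest.Agent.X212.Fin37.Lvb
import Crest.Agent.X212.Dgr80.Fen
import Crest.Agent.X212.Tms63.Main
import Crest.Agent.X212.Gl67.Main
import Crest.Agent.X212.Glw30.Wx
import Crest.Agent.X212.Gb50.Zer
import Crest.Agent.X212.Ax1.Gb
import Crest.Agent.X212.Cay24.GlS

/-!
# Row 212, KIT (helper81): the leaves for all jobs of the generic class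
-/

set_option autoImplicit false
set_option linter.unusedSectionVars false
noncomputable section
open scoped Topology
open Set Function Filter

namespace Crest.Agent.X212.Kof81
open An An.Job M G75 Ins26 Nd18
open Rf65 hiding Fa WallL

section job
variable {Wi : Type} {X : Mf 4} {A κ lam : Type} [Fintype A] [Fintype κ] [Fintype lam]
  [DecidableEq lam] {M : Mark X A κ} {W : World M} {L : ML M lam} {Λ : Lns W L}
  {A' h : Type} [Fintype A'] [DecidableEq A'] [Fintype h] {r n : ℕ} (J : Job Wi Λ A' h r n)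

/-- `Fin37.ELM` at one wall -/
def ELa (Adm : (Wi →₀ ℝ) → Prop) (a : A) : Prop := ∀ σ ∈ J.𝒦, ∀ c q (y : J.Obc c), Adm q →
  Sol σ q y → ∀ b (ha : Act J.m c a (some b) (J.Θ y.s)), ∃ d > 0,
    (J.K c a _ _ ha).ELim d y.x (y.β a b) (y.ζ a b) (bif b then atBot else atTop)

/-- the inputs at a wall that can break -/
structure WI (a : A) : Prop where
  nk : Nck90.PW (J.xs a) ∨ Nck90.CW J a
  el : Sml fun Adm => ELa J Adm a
  ch : Sml fun Adm => Fin37.ChX Adm (J.xs a)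

/-- all walls -/
def WH : Prop := ∀ a ∈ J.hw, ¬M.pin a → WI J a

/-- compactness from the a priori bound and the necks -/
def CmpL : Prop := Nck90.CZC J ∧ (Sml (Cmp73.APJ J) → Sml (Cmp73.NECK J) → Sml J.Comp)

/-- the open generic leaves of the gluing theorem -/
def GoL : Prop := AllD J fun _ _ _ _ _ d q₀ δ => d.Oke q₀ ∧ d.LipS q₀ δ 8 ∧ d.LipZ q₀ δ 8 ∧
  d.LipX q₀ δ 8 ∧ d.LocS q₀ δ 8 ∧ d.LocZ q₀ δ 8 ∧ d.RepX δ 8 ∧ d.C11 q₀ δ 8

/-- what does not depend on the faces -/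
structure JF (n₀ : ℤ) : Prop extends JL J n₀ where
  fin : Sml fun Adm => ∀ σ ∈ J.𝒦, ∀ c, J.FinE σ c Adm

variable {J}

theorem GoL.gen (H : GoL J) : GenL J := fun σ a U Up R d q₀ δ h =>
  let ⟨a1, a2, a3, a4, a5, a6, a7, a8⟩ := H σ a U Up R d q₀ δ h
  have b := Gb50.base h
  ⟨Gb50.geo h, b, a1, a2, a3, a4, Gb50.zer h, a5, a6, a7, a8, Ax1.Gb.bootX h (by norm_num) b,
    Cay24.solX h (by norm_num) (Gb50.geo h) b, Glw30.wx h (by norm_num) b⟩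

theorem wkL (hJ : J.OK) (hW : W.Nrm) (hΛ : Λ.Nrm) : WkL J := fun _ a b c =>
  have H : Glw30.Hy J _ := ⟨hJ, hW, hΛ, a, b, c⟩
  ⟨H.wu, H.wc, H.wi⟩

theorem WH.inp (H : WH J) (hJ : J.OK) : Sml fun Adm => Fin37.FEN J Adm ∧ Fin37.CHH J Adm :=
  (Sml.all fun a : {a // a ∈ J.hw ∧ ¬M.pin a} => (H a a.2.1 a.2.2).el.and (H a a.2.1 a.2.2).ch).mono
    fun _ k => ⟨Dgr80.fen hJ fun σ hσ c q y a b x e ha =>
      (k ⟨x, hJ.sub_hw hσ b.ov ha.2.2.2, ha.1⟩).1 σ hσ c q y a b e ha, fun a u v => (k ⟨a, u, v⟩).2⟩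

theorem WH.fin (H : WH J) (hJ : J.OK) : Sml fun Adm => ∀ σ ∈ J.𝒦, ∀ c, J.FinE σ c Adm :=
  ((H.inp hJ).and (Fin37.finE' hJ (Tms63.tmsz hJ) (Lit63.litJ hJ))).mono fun _ k => k.2 k.1.1 k.1.2

theorem WH.comp (H : WH J) (hJ : J.OK) (C : CmpL J) : Sml J.Comp :=
  C.2 (((H.inp hJ).and (Fin37.apj' hJ (Tms63.tmsz hJ) (Lit63.litJ hJ))).mono
    fun _ k => k.2 k.1.1 k.1.2) (Nck90.neckS hJ C.1 fun a u v => (H a u v).nk)

end job

variable {κ lam : Type} [Fintype κ] [Fintype lam] [DecidableEq lam] (Lm : LM κ lam)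

/-- **all leaves of the kits** -/
structure KLx : Prop extends FL Lm where
  psc : AllS Lm fun J => ∀ a, PX (J.xs a) → WI J a
  chg : AllS Lm fun J => Kit16.ChgL J
  cmp : AllS Lm fun J => CmpL J
  go : AllS Lm fun J => GoL J
  frx : ∀ (S : Scene Lm) (D : S.Dat) i Wi r n (J : Job Wi (D.Λ i) (S.A ⊕ Unit) S.ls r n) X a₀ j n₀ T,
    GX J X a₀ j n₀ T → FrxL J n₀

variable {Lm} {S : Scene Lm} {D : S.Dat} {i : S.L} {Wi : Type} {r n : ℕ}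
  {J : Job Wi (D.Λ i) (S.A ⊕ Unit) S.ls r n} {X : Finset S.A} {a₀ : Option S.A} {j : ℕ} {n₀ : ℤ}
  {T : ℝ}

namespace KLx
variable (L : KLx Lm)
include L

theorem wh (G : GX J X a₀ j n₀ T) (hX : ∀ a ∈ X, ¬S.M.pin a → ∃ b, PY (J.xs a).D b)
    (h0 : ∀ a ∈ a₀, WI J a) : WH J := fun a ⟨_, e⟩ hp => by
  by_cases k : a ∈ a₀
  · exact h0 a k
  refine L.psc _ _ _ _ _ _ J G.sc G.ok a ⟨(G.nil a k).1, (G.nil a k).2, ?_⟩
  rcases hd_mem G e with (e | e | e) | e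
  exacts [(hp e).elim, ⟨0, (L.ly _ _ _ _ _ _ J G.sc G.ok a e).1⟩, hX a e hp, (k e).elim]

/-- **the leaves of a job** -/
theorem jf (G : GX J X a₀ j n₀ T) (hn : J.𝒦.Nonempty)
    (hX : ∀ a ∈ X, ¬S.M.pin a → ∃ b, PY (J.xs a).D b) (h0 : ∀ a ∈ a₀, WI J a) : JF J n₀ :=
  have w := L.wh G hX h0
  ⟨⟨Kit16.mdlL G hn (L.chg _ _ _ _ _ _ J G.sc G.ok), w.comp G.ok (L.cmp _ _ _ _ _ _ J G.sc G.ok),
    (L.go _ _ _ _ _ _ J G.sc G.ok).gen, L.frx _ _ _ _ _ _ J X a₀ j n₀ T G,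
    wkL G.ok D.nrm (D.lnrm i), fun _ _ _ I => I.gl⟩, w.fin G.ok⟩

theorem klv : KLv Lm :=
  have k : AllF Lm fun J n₀ => JF J n₀ := fun _ _ _ _ _ _ _ _ _ _ G hn =>
    L.jf G hn (fun _ e => absurd e (by simp)) nofun
  ⟨L.toFL, fun S D i Wi r n J j n₀ T G hn => (k S D i Wi r n J j n₀ T G hn).fin,
    fun S D i Wi r n J j n₀ T G hn => (k S D i Wi r n J j n₀ T G hn).mdl,
    fun S D i Wi r n J j n₀ T G hn => (k S D i Wi r n J j n₀ T G hn).comp,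
    fun S D i Wi r n J j n₀ T G hn => (k S D i Wi r n J j n₀ T G hn).gen,
    fun S D i Wi r n J j n₀ T G hn => (k S D i Wi r n J j n₀ T G hn).frx,
    fun S D i Wi r n J j n₀ T G hn => (k S D i Wi r n J j n₀ T G hn).wk,
    fun S D i Wi r n J j n₀ T G hn => (k S D i Wi r n J j n₀ T G hn).gl⟩

end KLx

variable (J) in
/-- the types of the faces: `E` where `a` is broken -/
def TQ (a : S.A) (E : Ty J) (δ : ℝ) (n₀ : ℤ) : Ty J := fun σ c q y =>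
  (a ∈ c.1 → E σ c q y) ∧ (a ∉ c.1 → TL J δ (shX S ∅) n₀ σ c q y)

variable (S) in
/-- **kits of jobs with a wall `a` with neck terms** -/
theorem KLx.gv (L : KLx Lm) : ∃ K₀ : ℝ, ∀ᶠ T in 𝓝[<] (1 : ℝ), ∀ j n₀ (D : S.Dat) i Wi r n
    (J : Job Wi (D.Λ i) (S.A ⊕ Unit) S.ls r n) a P E, GX J ∅ (some a) j n₀ T → J.𝒦.Nonempty →
    WI J a → (Sml fun Adm => NK J Adm K₀) → GV P →
    (∀ σ ∈ J.𝒦, ∀ c : S.M.Cl, a ∈ c.1 → FaceP J n₀ P E σ c) →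
    (∀ σ ∈ J.𝒦, .inr () ∈ J.wa σ → WallL J n₀ E σ (.inr ())) → ∃ δ,
    GV fun q => ∃ K : J.Kit, K.Ax ∧ K.GG q ∧ K.n₀ = n₀ ∧ TyAt J n₀ (TQ J a E δ n₀) q := by
  obtain ⟨K₀, k⟩ := L.lens S
  refine ⟨K₀, k.mono fun T k j n₀ D i Wi r n J a P E G hn w nk hP hf hw => ?_⟩
  have f := L.jf G hn (fun _ e => absurd e (by simp)) fun _ e => Option.some.inj e ▸ w
  obtain ⟨δ, k⟩ := (k j n₀ D i Wi r n J ∅ _ G fun c _ =>
    (nk.and f.fin).mono fun Adm e => ⟨e.1, fun σ hσ => e.2 σ hσ c⟩).exists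
  have ln : ∀ {c : S.M.Cl}, a ∉ c.1 → (∀ x ∈ c.1, x ∈ hard S ∅ ∨ x ∈ some a) → Ln (some a) c :=
    fun e k => ⟨fun _ u => Option.some.inj u ▸ e, fun x hx => by
      rcases k x hx.1 with (u | u | u) | u
      exacts [(hx.2 u).elim, u, absurd u (by simp), (e (Option.some.inj u ▸ hx.1)).elim]⟩
  refine ⟨δ, kitP G.ok f.toJL hn hP (fun σ hσ c => ?_) fun σ hσ x hx => ?_⟩
  · by_cases e : a ∈ c.1
    · exact (hf σ hσ c e).mono fun _ _ u => ⟨fun _ => u, fun v => (v e).elim⟩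
    by_cases e' : Ln (some a) c
    · exact (((k σ hσ).1 c e').mono fun _ _ u => ⟨fun v => (e v).elim, fun _ => u⟩).p
    · exact (StrL.of_not fun _ _ hy => e' (ln e fun _ => sol_mem G hσ hy)).face.p
  by_cases e : a ∈ (J.cf x).1
  · obtain rfl := G.ok.inj x (.inr ()) a e (by rw [G.hd]; rfl)
    exact (hw σ hσ hx).mono fun _ _ u => u.1 e
  · exact ((k σ hσ).2 x hx (ln e fun _ => hd_mem G)).mono fun _ _ u => u.2 e

end Crest.Agent.X212.Kof81
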