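import Crest.Agent.X212.Kof81.Cls
import Crest.Agent.X212.Nd18.Fk

/-!
# Row 212, F-KL (helper81): the jobs of prisms lie in the generic class
-/

set_option autoImplicit false
set_option linter.unusedSectionVars false
noncomputable section
open Set Function Filter

namespace Crest.Agent.X212.Kof81
open An An.Job M G75 Ins26 Jb7 Nd18
open Rf65 hiding Fa WallL
open Br55 (CN)

theorem tpp_mem {T u : ℝ} (hT : T < 1) (hu : u ≤ 1) : tpp T u ∈ Icc T 1 := by
  have a := Real.smoothTransition.nonneg ((u - T) / ((1 - T) / 2))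
  have b := Real.smoothTransition.le_one ((u - T) / ((1 - T) / 2))
  unfold tpp swp
  rcases le_total u T with k | k
  · rw [Real.smoothTransition.zero_of_nonpos (div_nonpos_of_nonpos_of_nonneg (by linarith)
      (by linarith))]
    exact ⟨by simp, by simpa using hT.le⟩
  · exact ⟨by nlinarith, by nlinarith⟩

theorem tpp_one {T : ℝ} (hT : T < 1) : tpp T 1 = 1 := by
  unfold tpp swp
  rw [Real.smoothTransition.one_of_one_le (by rw [le_div_iff₀ (by linarith)]; linarith)]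
  ring

theorem cl_sub {κ lam : Type} [Fintype κ] [Fintype lam] [DecidableEq lam] {Lm : LM κ lam}
    {S : Scene Lm} {τ σ : Finset S.A} (k : τ ⊆ σ) (o : Option Bool) :
    Job.cl (cel τ o) ⊆ Job.cl (cel σ none) := fun s hs => by
  refine ⟨fun a b e => ?_, hs.2⟩
  rcases a with a | a
  · by_cases u : a ∈ σ
    · simp [cel, u] at e
    · exact hs.1 _ b ((if_neg (mt (@k a) u)).trans ((if_neg u).symm.trans e))
  · exact nomatch e

variable {κ lam : Type} [Fintype κ] [Fintype lam] [DecidableEq lam] {Lm : LM κ lam}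
  {y : G75.YD κ lam} {S : Scene Lm} {t : TD y S} {N : ND (yY y).M (lam ⊕ lam)} {n : ℕ} {D : S.Dat}
  {F : Pr t N n D} {c : Cn S.L S.A} {d R : ℕ} {T : ℝ} {i : S.L}

theorem θ_a (s : S.A ⊕ Unit → ℝ) : (F.Θ s).2 t.a = tpp F.T (s (.inr ())) := update_self ..

theorem θ_ne (s : S.A ⊕ Unit → ℝ) {a : S.A} (e : a ≠ t.a) :
    (F.Θ s).2 a = thS (hard S ∅) ↑S.fz (fun _ _ => F.T) s a := update_of_ne e ..

/-- **the jobs of a prism** -/
theorem gxP (ht : t.OK R c) (hc : CN S d c) (hF : F.OK c d T) (hi : c i ≠ 0) (m : ℕ)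
    (k : Fin (n + 1)) : GX (F.J c d i m k) ∅ (some t.a) (m - k) (-d) T where
  sc := hc.ok
  ok := (hF.J i hi m k).1
  loc := (hF.J i hi m k).2
  r := rfl
  k := rfl
  ct := rfl
  nb := rfl
  hd := rfl
  fz _ e := Option.some.inj e ▸ ht.fz.1
  nil x hx := by
    unfold Nl
    rw [show (F.J c d i m k).xs x = _ from F.xs_ne i fun e => hx (e ▸ rfl)]
    exact ⟨Ink3.nd0_nil, rfl⟩
  ν a s := by
    dsimp only
    split_ifs
    exacts [⟨Real.smoothTransition.nonneg _, Real.smoothTransition.le_one _⟩,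
      ⟨Real.smoothTransition.nonneg _, Real.smoothTransition.le_one _⟩, ⟨le_rfl, zero_le_one⟩]
  cell σ' := fun ⟨τ, o, σ, e, _, k1, k2⟩ => ⟨τ, o, σ, e, k2, (hc.cl.mem i σ k1).1, hc.ns i σ k1,
    (Finset.coe_subset.2 k2).trans (hard_of hc.cl.toSf k1 ∅), by
      rw [(hc.cl.mem i σ k1).2.1]; cases o <;> simp [sf]⟩
  par τ o e s hs := by
    refine ⟨fun a _ => ((hF.J i hi m k).1.par _ e s ((F.J c d i m k).cl_dom hs)).1 a,
      fun a ha => ?_, fun a h1 h2 => ?_⟩
    · by_cases u : a = t.a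
      · have := tpp_mem hF.T.2.2 (hs.2 (.inr ())).2
        rw [← θ_a, ← u] at this
        exact ⟨hF.T.1.trans this.1, this.2⟩
      · have : (F.Θ s).2 a = F.T := (θ_ne s u).trans (if_pos (Finset.mem_coe.2 ha))
        exact this ▸ ⟨hF.T.1, hF.T.2.2.le⟩
    · have : s (.inl a) = 0 := hs.1 _ false (if_neg h1)
      refine (θ_ne s fun u : a = t.a => h2 (u ▸ ht.fz.1)).trans ((if_neg (mt Finset.mem_coe.1 h2)).trans ?_)
      simp [rho, this]
  rich σ' := fun ⟨τ, o, σ, e, _, k1, k2⟩ s hs e' u v => by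
    have hs' := cl_sub k2 o (e ▸ hs)
    have := hF.rich i σ m k k1 s hs' ((hs'.2 _).2.lt_of_ne fun w => v _ rfl (u.le
      (show (F.Θ s).2 t.a = 1 by rw [θ_a, w, tpp_one hF.T.2.2])))
    exact ⟨this.1, fun π hπ => this.2 π (u.ge.antisymm u.le ▸ hπ)⟩
  van σ' := fun ⟨τ, o, σ, e, _, k1, k2⟩ s hs => hF.van i σ m k k1 s (cl_sub k2 o (e ▸ hs))

end Crest.Agent.X212.Kof81
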