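import Crest.Agent.X212.Gl67.Leaf

/-!
# Row 212, KIT (helper81): the leaves of a kit and the assembly (job level)
-/

set_option autoImplicit false
set_option linter.unusedSectionVars false
noncomputable section
open scoped Manifold ContDiff Topology
open Set Function Filter

namespace Crest.Agent.X212.Kof81
open An An.Job M Gj67

variable {Wi : Type} {X : Mf 4} {A κ lam : Type} [Fintype A] [Fintype κ] [Fintype lam]
  [DecidableEq lam] {M : Mark X A κ} {W : World M} {L : ML M lam} {Λ : Lns W L}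
  {A' h : Type} [Fintype A'] [DecidableEq A'] [Fintype h] {r n : ℕ} (J : Job Wi Λ A' h r n)
  (n₀ : ℤ)

/-- `Z c` may carry a face of `σ` (`= Mdl.Fa`) -/
def Fa (σ : Cel A') (c : M.Cl) : Prop :=
  n₀ + dim σ = 1 ∧ c.1 ⊆ cylW c ∧ ∃ a ∈ J.wa σ, c = J.cf a

/-- properties of regular face objects -/
abbrev Ty : Type := Cel A' → ∀ c : M.Cl, (Wi →₀ ℝ) → J.Obc c → Prop

/-- a property of all gluing problems -/
def AllD (P : ∀ σ a (U Up R : FD), Dat J σ a U.V Up.V R.V → (Wi →₀ ℝ) → ℝ → Prop) : Prop :=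
  ∀ σ a (U Up R : FD) (d : Dat J σ a U.V Up.V R.V) q₀ δ, d.OK q₀ δ → P σ a U Up R d q₀ δ

/-- the model of the top strata, with its charts -/
structure MdOK (D : J.Mdl) : Prop where
  top : D.top = top0
  n₀ : D.n₀ = n₀
  ax : ∀ Adm, ∀ σ ∈ J.𝒦, D.Ax Adm σ
  lk : ∀ σ ∈ J.𝒦, ∀ x, (D.Q σ).In x → ∀ a' ∈ J.wa σ, D.gx.pa x a' = (D.ob x).s a'
  chg : ∀ Adm, AllD J fun _ _ _ _ _ d q₀ δ => d.Gen q₀ δ 8 → d.Chg δ 8 D Adm

/-- **LEAF MDL + CHG** (16) -/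
def MdlL : Prop := ∃ D, MdOK J n₀ D

/-- strata on `Z c`; regular objects of face strata have the type `FR` -/
structure StrOK (FR : Ty J) (Adm : (Wi →₀ ℝ) → Prop) (σ : Cel A') (c : M.Cl) (T : J.Stra c) :
    Prop where
  ax : T.Ax Adm σ Obc.Top (Fa J n₀ σ c)
  fc : ∀ s q y, T.face s → Adm q → Sol σ q y → T.mem s y →
    (∃ z, y.x.Φ z ≠ 0) ∧ J.unc c = univ ∧ (T.Reg s q y → FR σ c q y)

/-- **LEAF STRA** at the face `c` of `σ` (65; 18 if the wall with neck terms is broken) -/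
def StrL (FR : Ty J) (σ : Cel A') (c : M.Cl) : Prop :=
  Sml fun Adm => St.IsOp Adm → ∃ T, StrOK J n₀ FR Adm σ c T

/-- **LEAF WALL** at the wall `a` of `σ` (rows 6712, 6713) -/
def WallL (FR : Ty J) (σ : Cel A') (a : A') : Prop := Sml fun Adm => ∀ q₀, Adm q₀ →
  ∀ y : J.Obc (J.cf a), Sol σ q₀ y → y.Tight → (∃ z, y.x.Φ z ≠ 0) → J.unc (J.cf a) = univ →
    Fa J n₀ σ (J.cf a) → FR σ _ q₀ y → (∀ a', σ a' = none → a' ≠ a → y.s a' ∈ Ioo (0 : ℝ) 1) →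
    ∃ (U Up R : FD) (d : Dat J σ a U.V Up.V R.V) (δ : ℝ), Job.Iso d.y y ∧ d.Wall q₀ δ 8

/-- **LEAF GEN** (rows 6701-6710) -/
def GenL : Prop := AllD J fun _ _ _ _ _ d q₀ δ => d.Gen q₀ δ 8

/-- **LEAF FRX** (row 6707) -/
def FrxL : Prop := AllD J fun σ _ _ _ _ d q₀ δ => d.Gen q₀ δ 8 → d.Frx δ 8 (n₀ + dim σ)

/-- **LEAF W** (row 6710) -/
def WkL : Prop := ∀ c : M.Cl, M.Up M.c0 c → c.1 ⊆ J.m.1 → J.unc c = univ →
  WU J c ∧ WC J c ∧ WI J c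

/-- **LEAF GL** (67) -/
def GlL : Prop := ∀ (K : J.Kit) σ a, Inp K σ a 8 → K.Gl σ a

/-- the leaves of the genericity of the ideal strata -/
structure KL1 (FR : Ty J) : Prop where
  ok : J.OK
  mdl : MdlL J n₀
  comp : Sml J.Comp
  str : ∀ σ ∈ J.𝒦, ∀ c, StrL J n₀ FR σ c

/-- **all leaves** -/
structure KL (FR : Ty J) : Prop extends KL1 J n₀ FR where
  wall : ∀ σ ∈ J.𝒦, ∀ a ∈ J.wa σ, WallL J n₀ FR σ a
  gen : GenL J
  frx : FrxL J n₀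
  wk : WkL J
  gl : GlL J

/-- **TYPE**: all ideal solutions are face objects of the type `FR` -/
def TyAt (FR : Ty J) (q : Wi →₀ ℝ) : Prop := ∀ σ ∈ J.𝒦, ∀ c (y : J.Obc c), Sol σ q y → ¬y.Top →
  Fa J n₀ σ c ∧ y.Tight ∧ (∃ z, y.x.Φ z ≠ 0) ∧ J.unc c = univ ∧ FR σ c q y

variable {J n₀} {FR : Ty J} {Adm : (Wi →₀ ℝ) → Prop} {σ : Cel A'} {c : M.Cl}

/-- face strata only where a face may be -/
@[reducible] def rs (T : J.Stra c) (P : Prop) : J.Stra c := { T with face := fun s => T.face s ∧ P }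

theorem StrOK.rs {T : J.Stra c} (H : StrOK J n₀ FR Adm σ c T) :
    StrOK J n₀ FR Adm σ c (rs T (Fa J n₀ σ c ∧ J.unc c = univ)) :=
  ⟨{ H.ax with
      kill := fun s q y f a b e => H.ax.kill s q y (fun k =>
        f ⟨k, (H.ax.face s q y k a b e).1, (H.fc s q y k a b e).2.1⟩) a b e
      face := fun s q y f => H.ax.face s q y f.1
      fine := fun s q₀ a α 𝒰 q y y₀ b d e f => (H.ax.fine s q₀ a α 𝒰 q y y₀ b d e f).imp id
        fun ⟨s', k1, k2, k3⟩ => ⟨s', k1, k2, fun k => k3 k.1⟩ },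
    fun s q y f => H.fc s q y f.1⟩

/-- the kit -/
@[reducible] def kit (D : J.Mdl) (Adm : (Wi →₀ ℝ) → Prop) (T : Cel A' → ∀ c, J.Stra c) : J.Kit where
  toMdl := D
  Adm := Adm
  T σ c := rs (T σ c) (Fa J D.n₀ σ c ∧ J.unc c = univ)
  Deg σ a α 𝒰 u y := (Fa J D.n₀ σ (J.cf a) ∧ J.unc (J.cf a) = univ) ∧ GDeg D σ a α 𝒰 u y

section
variable {D : J.Mdl} {T : Cel A' → ∀ c, J.Stra c} (hJ : J.OK) (hD : MdOK J n₀ D) (ho : St.IsOp Adm)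
  (hc : J.Comp Adm) (hT : ∀ σ ∈ J.𝒦, ∀ c, StrOK J n₀ FR Adm σ c (T σ c))
include hJ hD ho hc hT

theorem ax1 : (kit D Adm T).Ax1 := by
  obtain rfl := hD.n₀
  refine ⟨⟨hJ, ho, hc, hD.ax Adm, fun σ hσ c => ?_⟩, fun σ hσ a _ s q₀ y₀ f k1 k2 k3 α 𝒰 q y _ e => ?_⟩
  · have := (hT σ hσ c).rs.ax
    rwa [← D.top_eq hD.top] at this
  · obtain ⟨z, hz⟩ := ((hT σ hσ _).fc s q₀ y₀ f.1 k1 k2 k3).1
    obtain ⟨π, -, hπ⟩ := Cyl58.exists_pc W.toCaps z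
    exact (e.top ⟨z, hπ, hz⟩).mono fun _ k => hD.top ▸ k

theorem tyAt {q : Wi →₀ ℝ} (hq : (kit D Adm T).G q) : TyAt J n₀ FR q := fun σ hσ c y hy ht => by
  obtain ⟨k, s, k1, k2, k3⟩ := (ax1 hJ hD ho hc hT).face hq hσ hy (by rwa [D.top_eq hD.top])
  have := (hT σ hσ c).fc s q y k1.1 hq.1 hy k2
  exact ⟨hD.n₀ ▸ k.1, k.2, this.1, this.2.1, this.2.2 k3⟩

end

theorem exists_T (h : ∀ σ ∈ J.𝒦, ∀ c, StrL J n₀ FR σ c) (hn : J.𝒦.Nonempty) :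
    Sml fun Adm => St.IsOp Adm →
      ∃ T : Cel A' → ∀ c, J.Stra c, ∀ σ ∈ J.𝒦, ∀ c, StrOK J n₀ FR Adm σ c (T σ c) := by
  have : Finite M.Cl := Subtype.finite
  refine (Sml.all fun x : J.𝒦 × M.Cl => h x.1 x.1.2 x.2).mono fun Adm k ho => ?_
  choose T hT using fun σ c => k (σ, c) ho
  classical
  exact ⟨fun σ => if e : σ ∈ J.𝒦 then T ⟨σ, e⟩ else T ⟨_, hn.some_mem⟩, fun σ e c => by
    simpa only [dif_pos e] using hT ⟨σ, e⟩ c⟩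

/-- **types of ideal solutions** (no gluing) -/
theorem KL1.ty (H : KL1 J n₀ FR) : GV (TyAt J n₀ FR) := by
  rcases J.𝒦.eq_empty_or_nonempty with e | hn
  · exact .of fun _ ho => (Gen.adm ho).mono fun _ _ _ σ hσ => (e.le hσ).elim
  obtain ⟨D, hD⟩ := H.mdl
  refine (H.comp.and (exists_T H.str hn)).mono fun Adm k ho => ?_
  obtain ⟨T, hT⟩ := k.2 ho
  exact (Gen.of (ax1 H.ok hD ho k.1 hT).low).mono fun q _ => tyAt H.ok hD ho k.1 hT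

/-- **the kit** -/
theorem KL.kit (H : KL J n₀ FR) (hn : J.𝒦.Nonempty) :
    GV fun q => ∃ K : J.Kit, K.Ax ∧ K.GG q ∧ K.n₀ = n₀ ∧ TyAt J n₀ FR q := by
  obtain ⟨D, hD⟩ := H.mdl
  refine (H.comp.and ((exists_T H.str hn).and (Sml.all fun x : {x : J.𝒦 × A' // x.2 ∈ J.wa x.1} =>
    H.wall _ x.1.1.2 _ x.2))).mono fun Adm k ho => ?_
  obtain ⟨T, hT⟩ := k.2.1 ho
  have a1 := ax1 H.ok hD ho k.1 hT
  have ax : (Kof81.kit D Adm T).Ax := ⟨a1.toAx0, fun σ hσ a ha => by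
    by_cases f : Fa J D.n₀ σ (J.cf a) ∧ J.unc (J.cf a) = univ
    swap
    · exact .inr ⟨fun s e => f e.2, fun _ _ _ _ e => f e.1⟩
    obtain ⟨w1, w2, w3⟩ := H.wk (J.cf a) ⟨empty_subset _, fun x hx hp => ((f.1.2.1 hx).2 hp).elim⟩
      (fun x hx => H.ok.mem a x hx (f.1.2.1 hx).2) f.2
    refine .inl (H.gl _ σ a ⟨by norm_num, a1, hσ, ha, ?_, hD.lk σ hσ, w1, w2, w3, fun q₀ hq y h1 h2 h3 => ?_⟩)
    · funext α 𝒰 u y
      exact propext (and_iff_right f)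
    have t := tyAt H.ok hD ho k.1 hT hq σ hσ _ y h1 fun e => cf_ne ha e.1
    obtain ⟨U, Up, R, d, δ, e1, e2⟩ := k.2.2 ⟨(⟨σ, hσ⟩, a), ha⟩ q₀ hq.1 y h1 h2 t.2.2.1 f.2 t.1
      t.2.2.2.2 h3
    have g := H.gen σ a U Up R d q₀ δ e2.ok
    exact ⟨U, Up, R, d, δ, e1, e2, g, t.1.1 ▸ H.frx σ a U Up R d q₀ δ e2.ok g,
      hD.chg Adm σ a U Up R d q₀ δ e2.ok g⟩⟩
  exact (Gen.of ax.gg).mono fun q _ hq => ⟨_, ax, hq, hD.n₀, tyAt H.ok hD ho k.1 hT hq.1⟩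

end Crest.Agent.X212.Kof81
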