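import Crest.Agent.X212.Kof81.Two
import Crest.Agent.X212.Nd18.Ms2

/-!
# Row 212, KIT (helper81): strata under a generic hypothesis
-/

set_option autoImplicit false
set_option linter.unusedSectionVars false
noncomputable section
open Set Function Filter

namespace Crest.Agent.X212.Kof81
open An An.Job M Gj67
open Rf65 (Cg)

variable {Wi : Type} {X : Mf 4} {A κ lam : Type} [Fintype A] [Fintype κ] [Fintype lam]
  [DecidableEq lam] {M : Mark X A κ} {W : World M} {L : ML M lam} {Λ : Lns W L}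
  {A' h : Type} [Fintype A'] [DecidableEq A'] [Fintype h] {r n : ℕ} (J : Job Wi Λ A' h r n)
  (n₀ : ℤ) (P : (Wi →₀ ℝ) → Prop) (E : Ty J) (σ : Cel A') (c : M.Cl)

/-- `StrL` under the hypothesis `P` -/
def StrP : Prop := Sml fun Adm => St.IsOp Adm → (∀ q, Adm q → P q) → ∃ T, StrOK J n₀ E Adm σ c T

/-- `FaceL` under the hypothesis `P` -/
def FaceP : Prop := ∃ F : Ty J, Sml fun Adm => St.IsOp Adm → (∀ q, Adm q → P q) →
  (∃ T, Str1 J F Adm σ c T) ∧ ∀ G, Low.Ax ⟨Adm, G⟩ →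
    (∀ q, G q → TyC J F σ c q ∧ (c ≠ M.c0 → Cg J c σ Adm q)) → ∃ G', Low.Ax ⟨Adm, G'⟩ ∧
      ∀ B, St.IsOp B → (∀ q, B q → G' q) → ∃ T, StrOK J n₀ E B σ c T

variable {J n₀ P E σ c} {E' : Ty J}

theorem FaceL.p (H : FaceL J n₀ E σ c) : FaceP J n₀ P E σ c :=
  H.imp fun _ H => H.mono fun _ H ho _ => H ho

theorem FaceP.mono (H : FaceP J n₀ P E σ c) (k : ∀ q y, E σ c q y → E' σ c q y) :
    FaceP J n₀ P E' σ c :=
  H.imp fun _ H => H.mono fun _ H ho hP => ⟨(H ho hP).1, fun G a b => ((H ho hP).2 G a b).imp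
    fun _ e => ⟨e.1, fun B a b => (e.2 B a b).imp fun _ t => ⟨t.ax, fun s q y f a b e =>
      (t.fc s q y f a b e).imp id (And.imp id fun u v => k q y (u v))⟩⟩⟩

theorem StrP.face (H : StrP J n₀ P E σ c) : FaceP J n₀ P E σ c :=
  ⟨E, (down H).mono fun Adm k ho hP => ⟨(k Adm (fun _ => id) ho hP).imp fun _ => StrOK.one,
    fun _ _ _ => ⟨Adm, ⟨fun _ => id, ho, fun _ _ q a b => ⟨q, b, a⟩⟩, fun B a b =>
      k B b a fun q hq => hP q (b q hq)⟩⟩⟩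

theorem twoP (hm : MdlL J n₀) (hc : Sml J.Comp) (hn : J.𝒦.Nonempty)
    (hf : ∀ σ ∈ J.𝒦, ∀ c, FaceP J n₀ P E σ c) : Sml fun Adm => St.IsOp Adm → (∀ q, Adm q → P q) →
      ∃ G, Low.Ax ⟨Adm, G⟩ ∧
        ∃ T : Cel A' → ∀ c, J.Stra c, ∀ σ ∈ J.𝒦, ∀ c, StrOK J n₀ E G σ c (T σ c) := by
  have : Finite M.Cl := Subtype.finite
  obtain ⟨D, -⟩ := hm
  choose! F hF using hf
  refine (hc.and (Sml.all fun x : J.𝒦 × M.Cl => hF x.1 x.1.2 x.2)).mono fun Adm k ho hP => ?_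
  obtain ⟨T, hT⟩ := choose_T (P := Str1 J (fun σ c => F σ c σ c) Adm) hn fun σ e c =>
    (k.2 (⟨σ, e⟩, c) ho hP).1.imp fun _ t => ⟨t.ax, t.fc⟩
  let K : J.Kit := ⟨D, Adm, T, fun _ _ _ _ _ _ => False⟩
  have lw : Low.Ax ⟨Adm, K.G⟩ := K.G_eq ▸ (idl1 K ho k.1 hT).low
  choose G' h1 h2 using fun x : J.𝒦 × M.Cl => (k.2 x ho hP).2 _ lw fun q hq =>
    have t := fun c => tyC (K := K) (hT _ x.1.2 c) x.1.2 hq
    ⟨t _, cg k.1 hq.1 t x.1.2⟩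
  obtain ⟨G, h3, h4⟩ := Gen.all ho fun x => Gen.of (h1 x)
  exact ⟨G, h3, choose_T hn fun σ e c => h2 (⟨σ, e⟩, c) G h3.op fun q hq => h4 q hq _⟩

/-- **the kit** -/
theorem kitP (hJ : J.OK) (H : JL J n₀) (hn : J.𝒦.Nonempty) (hP : GV P)
    (hf : ∀ σ ∈ J.𝒦, ∀ c, FaceP J n₀ P E σ c) (hw : ∀ σ ∈ J.𝒦, ∀ a ∈ J.wa σ, WallL J n₀ E σ a) :
    GV fun q => ∃ K : J.Kit, K.Ax ∧ K.GG q ∧ K.n₀ = n₀ ∧ TyAt J n₀ E q := by
  refine Nd18.GV.stage hP (((down (H.comp.and (Sml.all fun x : {x : J.𝒦 × A' // x.2 ∈ J.wa x.1} =>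
    hw _ x.1.1.2 _ x.2))).and (twoP H.mdl H.comp hn hf)).mono fun Adm k ho hP => ?_)
  obtain ⟨D, hD⟩ := H.mdl
  obtain ⟨G, h1, T, hT⟩ := k.2 ho hP
  obtain ⟨kc, kw⟩ := k.1 G h1.le
  have a1 := ax1 hJ hD h1.op kc hT
  have ax : (kit D G T).Ax := ⟨a1.toAx0, fun σ hσ a ha => by
    by_cases f : Fa J D.n₀ σ (J.cf a) ∧ J.unc (J.cf a) = univ
    swap
    · exact .inr ⟨fun s e => f e.2, fun _ _ _ _ e => f e.1⟩
    obtain ⟨w1, w2, w3⟩ := H.wk (J.cf a) ⟨empty_subset _, fun x hx hp => ((f.1.2.1 hx).2 hp).elim⟩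
      (fun x hx => hJ.mem a x hx (f.1.2.1 hx).2) f.2
    refine .inl (H.gl _ σ a ⟨by norm_num, a1, hσ, ha, ?_, hD.lk σ hσ, w1, w2, w3,
      fun q₀ hq y h1' h2 h3 => ?_⟩)
    · funext α 𝒰 u y
      exact propext (and_iff_right f)
    have t := tyAt hJ hD h1.op kc hT hq σ hσ _ y h1' fun e => cf_ne ha e.1
    obtain ⟨U, Up, R, d, δ, e1, e2⟩ := kw ⟨(⟨σ, hσ⟩, a), ha⟩ q₀ hq.1 y h1' h2 t.2.2.1 f.2 t.1
      t.2.2.2.2 h3
    have g := H.gen σ a U Up R d q₀ δ e2.ok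
    exact ⟨U, Up, R, d, δ, e1, e2, g, t.1.1 ▸ H.frx σ a U Up R d q₀ δ e2.ok g,
      hD.chg G σ a U Up R d q₀ δ e2.ok g⟩⟩
  exact ⟨_, h1.trans ax.gg, fun q hq => ⟨_, ax, hq, hD.n₀, tyAt hJ hD h1.op kc hT hq.1⟩⟩

end Crest.Agent.X212.Kof81
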