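import Crest.Agent.X212.Kof81.Prs
import Crest.Agent.X212.Lns95.Asm
import Crest.Agent.X212.Ins26.On
import Crest.Agent.X212.Nd18.Fca

/-!
# Row 212, F-KL (helper81): the lens faces of prisms
-/

set_option autoImplicit false
set_option linter.unusedSectionVars false
noncomputable section
open scoped Manifold ContDiff Topology
open Set Function Filter

namespace Crest.Agent.X212.Kof81
open An M G75 Eqv71 Cnt93 Ins30 Lns95 Ins26 Ins26.On Nd18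
open Line51 (rl)
open Br55 (CN)

variable {κ lam : Type} [Fintype κ] [Fintype lam] [DecidableEq lam]

section nk
variable {Wi : Type} {X : Mf 4} {B B' : Base X.M (Option κ) (lam ⊕ lam)}
  {G G' : Geo X.I X.M (Option κ) (lam ⊕ lam)} {O : Set X.M} {U v} {r n : ℕ} {Z Z' : Xs Wi κ lam}

/-- the terms of two necks with the same coordinates -/
theorem nk_rel (e : Z' = Z) {K : Nk Z.D B G} {K' : Nk Z'.D B' G'} (s : Sm K K')
    (g : KT B G B' G' O O id id U v) (hO : K.ψ.target ⊆ O) (hv : ∀ z ∈ K.ψ.target, v z = B.l z)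
    (hN : Z.N.OK Z.D) (ν : ℝ) :
    PRel0 B G B' G' O O id U v ((Z.N.smul ν).q1 K : Pt _ _ _ r n) ((Z'.N.smul ν).q1 K') ∧
    ∀ w, PRel0 B G B' G' O O id U v (fsum (fun T => Z.N.q2 K T.1) (ν • Z.ty w) : Pt _ _ _ r n)
      (fsum (fun T => Z'.N.q2 K' T.1) (ν • Z'.ty w)) := by
  subst e
  have s := s.same
  have eχ : K'.χ = K.χ := by unfold Nk.χ Nk.cut; rw [s.p, s.q, s.tm]
  have o : ∀ x ∉ O, K.χ x = 0 := fun x hx => χ_off K fun k => hx (hO k)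
  have R : NkR O O id K K' 0 := ⟨fun x _ => by unfold Nk.τ; rw [s.p, s.q, s.tm, add_zero, id],
    fun t => by unfold Nk.cut; rw [s.p, s.q, add_zero], fun _ _ => congrFun eχ _,
    fun _ _ _ => by rw [s.ψ, id], o, eχ ▸ o, fun t => by unfold Nk.cut; rw [s.p, s.q, add_zero]⟩
  refine ⟨R.q1_rel0 g.toKC (nd_smul hN ν) g.tame.choose_spec g.tame'.choose_spec fun j x hx => ?_,
    fun w => prel0_fsum (fun T => R.q2_rel0 g.toKC hN T.2) _⟩
  rw [R.ext _ hx]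
  by_cases k : x ∈ K.ψ.target
  · rw [hv x k, trn_l g.hB]
  · simp only [Nk.ext, χ_off K k, zero_smul, map_zero]

variable {A : Type} [Fintype A] {M : Mark X A κ} {W : World M} {N N' : ML M lam}
  {m c : M.Cl} {a : A} {b : Option Bool} {p : Prm A} (h : Act m c a b p)

theorem sm_up (Λ : Lns W N) (Λ' : Lns W N') {T : Ink3.XG Wi N} {T' : Ink3.XG Wi N'} {g ok iso iso'}
    (e : T.at a = ⟨Z, g, ok, iso⟩) (e' : T'.at a = ⟨Z, g, ok, iso'⟩) :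
    Sm (T.K Λ m c a b p h) (T'.K Λ' m c a b p h) := by
  have k : ∀ (U : Ink3.XG1 Wi N a) (U' : Ink3.XG1 Wi N' a), U = ⟨Z, g, ok, iso⟩ →
      U' = ⟨Z, g, ok, iso'⟩ → Sm (Ink3.nk Λ U.ok.1 U.iso h) (Ink3.nk Λ' U'.ok.1 U'.iso h) := by
    rintro _ _ rfl rfl
    have := (nk_eq h Λ' ⟨Z, g, ok, iso'⟩).trans (nk_eq h Λ ⟨Z, g, ok, iso⟩).symm
    simp only [Prod.mk.injEq] at this
    exact ⟨this.1, this.2.1, heq_of_eq this.2.2.1, this.2.2.2⟩
  exact k _ _ e e'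

end nk

variable {Lm : LM κ lam} {y : G75.YD κ lam} {S : Scene Lm} {t : TD y S}
  {N : ND (yY y).M (lam ⊕ lam)} {n : ℕ} {D : S.Dat} {F : Pr t N n D} {c : Cn S.L S.A} {i : S.L}
  {l : S.ls} {σ : Cel (S.A ⊕ Unit)} {e : S.M.Cl} {k k' : ℝ} {r n' : ℕ} {τ τ' : TrS S F.Wi r n'}

/-- **twins** -/
theorem twP (hS : S.OK) (ha : t.a ∈ S.fz) (hJ : (F.jb c i k τ).OK)
    (hJ' : (F.jb c (S.fl l i) k' τ').OK) (h1 : σ ∈ cls c i) (h2 : σ ∈ cls c (S.fl l i))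
    (hc : e.1 = {l.1}) (hk : k' = k) (tw : ∀ s ∈ Job.cl σ, s (.inl l) = 1 → ∀ w,
      (τ'.co w s = τ.co w s ∧ (τ.co w s ≠ 0 → τ'.tw w = τ.tw w)) ∧
      ∀ l' ≠ l, τ'.cc l' w s = τ.cc l' w s ∧ (τ.cc l' w s ≠ 0 → τ'.tc l' w = τ.tc l' w)) :
    Tw (F.jb c i k τ) (F.jb c (S.fl l i) k' τ') l σ e := by
  have ne : l.1 ≠ t.a := fun u => (hS.fz _ ha).2.1 (u ▸ l.2)
  refine ⟨rfl, rfl, rfl, rfl, hk, rfl, (F.xs_ne _ ne).trans (Eq.trans (congrArg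
    (fun C => Xs.mk _ C _ _) (cy_fl hS l i)) (F.xs_ne i ne).symm), fun _ _ ha _ => sm_xg ha _ _
    (Ink3.XG.upd_ne _ _ ne) (Ink3.XG.upd_ne _ _ ne),
    fun z => rl (uu (D.Λ i) (D.Λ (S.fl l i)) F.m e z), fun s hs o => ?_⟩
  have o' : (F.jb c (S.fl l i) k' τ').Ov σ e s := o
  have e1 : (F.Θ s).2 l = 1 := (o.2.trans hc).ge rfl
  have e2 : s (.inl l) = 1 := by
    obtain ⟨a, u, u'⟩ := hJ.inf σ h1 s o.1 l e1
    rwa [hJ.inj _ _ _ u (Pr.hd_inl (.inr (.inl l.2)))] at u'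
  have U := sd_sub l hc true
  have I := iso_out hS l D i (hJ.par σ h1 s o.1) (by rw [e1]; exact one_ne_zero)
  have Q : Sq ((F.jb c i k τ).tp e) ((F.jb c (S.fl l i) k' τ').tp e) _ _ _ _ _ _ :=
    sq (D.Λ i) (D.Λ (S.fl l i)) F.m U I.toUni
  have cl := (om_clopen hS l hc D).compl.1
  rw [om_compl hS l hc] at cl ⊢
  have g : KT ((F.jb c i k τ).B e) ((F.jb c i k τ).G e s) ((F.jb c (S.fl l i) k' τ').B e)
      ((F.jb c (S.fl l i) k' τ').G e s) _ _ _ _ _ _ := kt_of (kg _ _ F.m U (hJ.memBr h1 o)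
    (hJ.memO h1 o) ((S.M.sys.w l).op_sd true) I) cl cl (hJ.tame h1 o) (hJ'.tame h2 o')
  have t' := tw s hs e2
  have q := trn_p (S.N i)
  have pt : ∀ a b (ha : Act F.m e a b (F.Θ s)), ∀ z ∈ ((F.jb c i k τ).K e a b _ ha).ψ.target,
      ∃ x u, u ∈ Cht98.Hs ((F.Θ s).2 a) (b.getD false) ∧ z = D.W.nj e a (x, u) := fun a b ha z hz =>
    have n := hJ.nk _ _ _ _ ha
    have j := (Nk.mem_src _).1 (((F.jb c i k τ).K e a b _ ha).ψ.map_target hz)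
    ⟨_, _, Cht98.li_mem (Cht98.act_le ha) (Cht98.isNk_J ha n ▸ j),
      (((F.jb c i k τ).K e a b _ ha).ψ.right_inv hz).symm.trans (Cht98.isNk_ψ ha n j)⟩
  have nl : ∀ j, ∀ a ∉ ({t.a} : Set S.A), Ink3.Nil ((F.xg j).xs a).N ∧ ((F.xg j).xs a).ty = 0 :=
    fun j a u => by rw [F.xs_ne j u]; exact ⟨Ink3.nd0_nil, rfl⟩
  have nk := fun b (hb : Act F.m e t.a b (F.Θ s)) => nk_rel (r := r) (n := n')
    ((F.xs_a (S.fl l i)).trans (F.xs_a i).symm) (sm_up hb (D.Λ i) (D.Λ (S.fl l i))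
      (Ink3.XG.upd_self _ _ _) (Ink3.XG.upd_self _ _ _)) g (fun z hz => by
      obtain ⟨x, u, -, rfl⟩ := pt _ _ hb z hz
      exact ⟨_, (hS.fz _ ha).2.2 l l.2 |>.1 ⟨_, rfl⟩, rfl⟩) (fun z hz => by
      obtain ⟨x, u, hu, rfl⟩ := pt _ _ hb z hz
      have L : S.M.Lit F.m.1 e.1 t.a u := ⟨(abs_lt.2 hu.1).le, .inr (by
        cases b
        exacts [⟨hb.2.2.2.1, hb.2.2.2.2.1⟩, (ne (hc.le hb.2.2.2).symm).elim])⟩
      have w := (hS.fz _ ha).2.2 l l.2 |>.1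
      classical
      exact congrArg rl (lit _ _ _ (hS.out l l.2 i) (a := ⟨t.a, w.trans subset_union_left⟩)
        (.inl (w ⟨_, rfl⟩)) L)) (hJ.xs t.a).2 ((F.jb c i k τ).ν t.a s)
  refine ⟨g, fun q₀ => .add ?_ (prel0_fsum (fun v => ?_) _), fun l' u ne => ?_, fun ha z hz => ?_⟩
  · rw [Ink3.τ0_res _ _ fun a u => (nl _ a u).1, Ink3.τ0_res _ _ fun a u => (nl _ a u).1]
    refine prel0_dsum' (mapsTo_id _) ?_ (fun _ a b => (b a).elim) fun _ a b => (b a).elim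
    rintro ⟨a, b⟩ ⟨u, rfl : a = t.a⟩ -
    exact (nk b u).1
  · rw [Ink3.τw_res (V := {t.a}) _ _ fun a u => by rw [(nl _ a u).2]; exact smul_zero _,
      Ink3.τw_res (V := {t.a}) _ _ fun a u => by rw [(nl _ a u).2]; exact smul_zero _]
    refine .add ?_ (prel0_dsum' (mapsTo_id _) ?_ (fun _ a b => (b a).elim) fun _ a b => (b a).elim)
    swap
    · rintro ⟨a, b⟩ ⟨u, rfl : a = t.a⟩ -
      exact (nk b u).2 v
    obtain ⟨k1, k2⟩ := (t' v).1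
    change (F.jb c (S.fl l i) k' τ').co v s = (F.jb c i k τ).co v s at k1
    rw [Ink3.τf, Ink3.τf, k1]
    by_cases h0 : (F.jb c i k τ).co v s = 0
    · rw [h0]
      exact prel0_zero (mapsTo_id _) (fun _ _ _ => ⟨zero_smul _ _, zero_smul _ _⟩)
        (fun _ _ _ => ⟨zero_smul _ _, zero_smul _ _⟩) (fun _ _ => by simp [Pt.smul])
        fun _ _ => by simp [Pt.smul]
    · refine (tm_rel0 g (Q.tm ?_) (hJ.tw_in h1 o h0).choose_spec
        (hJ'.tw_in h2 o' (k1 ▸ h0)).choose_spec).smul _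
      rw [show (F.jb c (S.fl l i) k' τ').tw v = _ from k2 h0]
      exact tmR_refl _ q _
  · have R : ((F.jb c i k τ).cut e l').Rel ((F.jb c (S.fl l i) k' τ').cut e l') _ id _ :=
      Q.cut (k := S.ct i l') (k' := S.ct (S.fl l i) l') (by
        rw [hS.ct_fl l' l.2 fun k => ne (Subtype.ext k.symm)]
        exact ⟨(hJ.nb l').2.sub.trans (nb_sub hS l ne), fun _ _ => rfl,
          List.forall₂_same.2 fun _ _ => ⟨fun _ _ => rfl, fun _ _ => rfl, fun _ _ => rfl⟩,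
          List.forall₂_same.2 fun _ _ => ⟨fun x _ => (q x _).symm, fun _ _ => rfl, fun _ _ => rfl⟩⟩)
      fun x hx => ⟨⟨x, hx, rfl⟩, rfl⟩
    refine ⟨R, fun q₀ {x x' u' ζ} k ξ a => ?_⟩
    simp only [Job.σc, Finsupp.sum, _root_.sum_apply, _root_.smul_apply, map_sum, map_smul]
    refine Finset.sum_congr rfl fun v _ => ?_
    obtain ⟨k1, k2⟩ := (t' v).2 l' ne
    rw [k1]
    by_cases h0 : τ.cc l' v s = 0
    · rw [h0, mul_zero, zero_smul, zero_smul]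
    have r : TcR (Vo l) id (fun x => rl ((S.N i).p x)) (τ.tc l' v) (τ'.tc l' v) := by
      rw [k2 h0]
      refine ⟨rfl, rfl, rfl, ?_⟩
      cases (τ.tc l' v).ξ
      exacts [.one, .aw (awR_refl _ _), .qj (coR_refl _ q _) (sR_refl _ q _) (swR_refl _ _)
        (swR_refl _ _) (lasR_refl _ _)]
    have := k.tc g ξ (hJ.ct σ h1 s o.1 _ o.2 l' u) (hJ'.ct σ h2 s o'.1 _ o'.2 l' u) R
      (Q.tc r) (hJ.tc_in h1 o h0).choose_spec (hJ'.tc_in h2 o' (k1.trans_ne h0)).choose_spec a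
    rw [this]
  · obtain ⟨x, u, hu, rfl⟩ := pt _ _ ha z hz
    have L : S.M.Lit F.m.1 e.1 l u := ⟨(abs_lt.2 hu.1).le, .inl ⟨ha.2.2.2,
      ((Cht98.act_Hs ha).1 hu).1.ne'⟩⟩
    classical
    exact congrArg rl (lit _ _ _ (hS.out l l.2 i) (a := ⟨l, subset_union_right⟩) (.inr ⟨_, rfl⟩) L)

variable {d R m : ℕ} {T : ℝ} {k : Fin (n + 1)}

/-- **the lens faces of a prism** -/
theorem lensP (H : Lv0 Lm) (ht : t.OK R c) (hc : CN S d c) (hF : F.OK c d T)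
    (ty : ∀ i (l : S.ls) σ, c i σ ≠ 0 → l.1 ∈ σ →
      GV (Lns95.Ty (F.J c d i m k) l (cel σ none) ((F.J c d i m k).cf (.inl l)))) :
    F.LensAt c d m k := fun i l σ hσ hl => by
  have hd : ∀ i, (F.J c d i m k).hd (.inl l) = some l.1 := fun _ => Pr.hd_inl (.inr (.inl l.2))
  have h1 : ((F.J c d i m k).cf (.inl l.1)).1 = {l.1} := Set.ext fun a =>
    ⟨fun h => (Option.some.inj ((hd i).symm.trans h)).symm, fun h => (hd i).trans (congrArg _ h.symm)⟩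
  have ne : l.1 ≠ t.a := fun u => (hc.ok.fz _ ht.fz.1).2.1 (u ▸ l.2)
  have ok : ∀ {i}, c i σ ≠ 0 → (F.J c d i m k).OK := fun h =>
    (hF.J _ (fun e => h (congrFun e σ)) m k).1
  have me : ∀ {i}, c i σ ≠ 0 → cel σ none ∈ cls c i := fun h => mem_cls h subset_rfl (by simp)
  have g : ∀ {a}, c a σ ≠ 0 → Sg (F.J c d a m k) l (cel σ none) _ := fun {a} h =>
    ⟨hc.ok, ok h, me h, h1, hd _, rfl, rfl, by
      rw [show (F.J c d a m k).xs l = _ from F.xs_ne a ne]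
      exact ⟨inferInstanceAs (IsEmpty Empty), inferInstanceAs (IsEmpty Empty), fun _ => rfl⟩,
    fun s h1 h2 w => (hF.van _ _ m k h s h1 l h2 w).1⟩
  have tw : ∀ {a a'}, a' = S.fl l a → c a σ ≠ 0 → c a' σ ≠ 0 →
      Tw (F.J c d a m k) (F.J c d a' m k) l (cel σ none) ((F.J c d i m k).cf (.inl l.1)) := by
    rintro a _ rfl h h'
    exact twP hc.ok ht.fz.1 (ok h) (ok h') (me h) (me h') h1 (kz_fl hc.ok l.2 a _ _)
      fun s u v => hF.twin a σ m k h s u l v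
  have hσ' : c (S.fl l i) σ ≠ 0 := (hc.cl.sym l l.2 i σ hl).trans_ne hσ
  exact (pair H (g hσ) (g hσ') (tw rfl hσ hσ') (tw (hc.ok.inv l l.2 i).symm hσ' hσ)
    (ty i l σ hσ hl) (ty _ l σ hσ' hl)).mono fun _ => congrArg _

end Crest.Agent.X212.Kof81
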