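import Crest.Agent.X212.Kof81.Gx
import Crest.Agent.X212.Kof81.Pon
import Crest.Agent.X212.Nk89.Gws

/-!
# Row 212, F-KL (helper81): kits, face types and lens faces of prisms
-/

set_option autoImplicit false
set_option linter.unusedSectionVars false
noncomputable section
open scoped Topology
open Set Function Filter

namespace Crest.Agent.X212.Kof81
open An An.Job M G75 Ins26 Nd18 Fk18
open Rf65 (hp)
open Br55 (CN)

variable {κ lam : Type} [Fintype κ] [Fintype lam] [DecidableEq lam] {Lm : LM κ lam}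
  {y : G75.YD κ lam} {S : Scene Lm} {t : TD y S} {N : ND (yY y).M (lam ⊕ lam)} {n : ℕ} {D : S.Dat}
  (F : Pr t N n D) {c : Cn S.L S.A} {d m : ℕ} {i : S.L} {k : Fin (n + 1)}

theorem x0_q (q : F.Wi →₀ ℝ) : F.x0.q q = An.rs F.wN q := Finsupp.ext fun T => by
  rw [Xs.q, Finsupp.sum_apply, Finsupp.sum_eq_single (F.wN T)]
  · exact (congrArg (q (F.wN T) * ·) Finsupp.single_eq_same).trans (mul_one _)
  · rintro (w | w | w | w | w) - e
    iterate 4 simp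
    simp [Finsupp.single_eq_of_ne fun u : T = w => e (u ▸ rfl)]
  · simp

variable {F}

/-- the faces with solutions -/
theorem sol_a (hJ : (F.J c d i m k).OK) {τ o e q} (hσ : cel τ o ∈ cls c i) (ho : o ≠ some true)
    (ha : t.a ∈ e.1) {x : (F.J c d i m k).Obc e} (hx : Sol (cel τ o) q x) :
    o = none ∧ e.1 ⊆ insert t.a ↑τ := by
  have key : ∀ z ∈ e.1, ∃ a, (F.J c d i m k).hd a = some z ∧ cel τ o a ≠ some false := fun z hz =>
    (hJ.inf _ hσ _ ((F.J c d i m k).cl_dom hx.cell) z (hx.inf.ge hz)).imp fun a u =>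
      ⟨u.1, fun v => zero_ne_one ((hx.cell.1 a false v).symm.trans u.2)⟩
  refine ⟨?_, fun z hz => ?_⟩
  · obtain ⟨a, u, v⟩ := key _ ha
    obtain rfl := hJ.inj a (.inr ()) _ u rfl
    rcases o with _ | _ | _
    exacts [rfl, (v rfl).elim, (ho rfl).elim]
  · obtain ⟨a | a, u, v⟩ := key z hz
    · by_cases w : a ∈ hard S ∅
      · obtain rfl : a = z := Option.some.inj ((Pr.hd_inl w).symm.trans u)
        exact .inr (by_contra fun w => v (if_neg w))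
      · exact nomatch (if_neg w).symm.trans u
    · exact .inl (Option.some.inj u).symm

/-- **F-KL** -/
theorem klp (L : KLx Lm) (H : Lns95.Lv0 Lm) (hF : FaceStmt Lm) (hE : EnStmt Lm)
    (hW : AllS Lm fun J => WH J → Nk89.WallY J)
    (hC : AllS Lm fun J => ∀ a, Nonempty ((J.xs a).N.CD (J.xs a).D) → WI J a) : KlP Lm := by
  intro y hy
  obtain ⟨Rw, en⟩ := hE y hy
  obtain ⟨R, fa⟩ := hF y hy Rw en
  refine ⟨R, fun S t d c ht hA hc c0 => ?_⟩
  obtain ⟨P, hP, hS, ms, D, lv, fa⟩ := fa S t d c ht hA hc c0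
  obtain ⟨K₀, gv⟩ := L.gv S
  refine ⟨P.N, P.C, hP.N, D, lv, fun n m k h1 h2 => ?_⟩
  filter_upwards [fa n m k h1 h2, gv, en P hS K₀ S ⟨t, c, d, n, D, m, k⟩ R ⟨hP, ht, hc, h1⟩]
    with T fa gv en F hF
  have key : ∀ i, c i ≠ 0 → ∃ δ₁ δ, GV fun q => ∃ K : (F.J c d i m k).Kit, K.Ax ∧ K.GG q ∧
      K.n₀ = -d ∧ TyAt _ (-d) (TQ _ t.a (TA F c d i m k P.C lv δ₁) δ (-d)) q := fun i hi => by
    have G := gxP ht hc hF hi m k
    have cd := cd_of (F.xs_a i) P.C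
    have w0 := hC _ _ _ _ _ _ _ G.sc G.ok t.a cd
    obtain ⟨δ₁, d1, w⟩ := hW _ _ _ _ _ _ _ G.sc G.ok (L.wh G (fun _ e => absurd e (by simp))
      fun _ e => Option.some.inj e ▸ w0) G.ok D.nrm (D.lnrm i) (.inr ()) t.a rfl cd
    obtain ⟨σ₀, k0⟩ := ne_iff.1 hi
    have hn : (F.J c d i m k).𝒦.Nonempty := ⟨_, mem_cls (o := none) k0 subset_rfl (by simp)⟩
    have fin := (L.jf G hn (fun _ e => absurd e (by simp)) fun _ e => Option.some.inj e ▸ w0).fin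
    refine ⟨δ₁, gv _ _ D i _ _ _ _ t.a (fun q => (∀ ρ, q (F.wD ρ) ≠ 0) ∧ P.C.Lev P.Γ (F.x0.q q) ∧
      P.C.Good P.Γ (F.x0.q q)) _ G hn w0 (en F hF i hi) (((GV.all fun ρ => gv_ne (F.wD ρ)).and
      (GV.comap ms.1 F.wN)).mono fun q u => ⟨u.1, x0_q F q ▸ ⟨u.2.1, u.2.2.2⟩⟩) ?_
      fun σ hσ ha => (w _ σ hσ ha).mono fun _ _ u => u.1⟩
    rintro _ ⟨τ, o, σ, rfl, ho, k1, k2⟩ e he
    have hσ := mem_cls k1 k2 ho
    by_cases u : o = none ∧ e.1 ⊆ insert t.a ↑τ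
    swap
    · exact (StrL.of_not fun _ _ hx => u (sol_a G.ok hσ ho he hx)).face.p
    obtain ⟨rfl, u⟩ := u
    exact StrP.face (((fa ⟨F, i, e, τ, σ⟩ ⟨hF, k1, k2, he, u⟩ δ₁ d1).and fin).mono
      fun Adm v _ hq => v.1 hq (v.2 _ hσ e))
  choose δ₁ δ key using key
  have c1 : ∀ {i σ}, c i σ ≠ 0 → c i ≠ 0 := fun u e => u (congrFun e _)
  have me : ∀ {i σ}, c i σ ≠ 0 → cel σ none ∈ cls c i := fun u => mem_cls u subset_rfl (by simp)
  refine ⟨⟨fun i hi => (key i hi).mono fun _ ⟨K, a, b, e, _⟩ => ⟨K, a, b, e⟩,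
    (GV.all fun i => gv_imp (p := c i ≠ 0) (P := fun q => ∀ σ, c i σ ≠ 0 →
      ∀ x : (F.J c d i m k).Obc (cA t), Sol (cel σ none) q x → Pr.Fp P.C lv σ x) fun hi =>
      (key i hi).mono fun q ⟨_, _, _, _, ty⟩ σ u x hx => ((ty _ (me u) _ x hx fun e =>
        (congrArg Subtype.val e.1).le rfl).2.2.2.2.1 rfl).2 σ rfl).mono
      fun q v i σ u x hx _ => v i (c1 u) σ u x hx⟩, lensP H ht hc hF fun i l σ u hl => ?_⟩
  refine (key i (c1 u)).mono fun q ⟨_, _, _, _, ty⟩ x hx _ ρ r1 r2 => ?_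
  have hm : l.1 ∈ ((F.J c d i m k).cf (.inl l)).1 := Pr.hd_inl (.inr (.inl l.2))
  obtain ⟨z, k1, k2⟩ := (ty _ (me u) _ x hx fun e => (congrArg Subtype.val e.1).le hm).2.2.2.2.2
    fun e => (hc.ok.fz _ ht.fz.1).2.1 (Option.some.inj (hm.symm.trans e) ▸ l.2)
  have h1 := k1.fa.1.2.1
  obtain rfl : l.1 = z := h1.le hm
  obtain rfl : ρ = hp l.1 false := funext fun a => by
    by_cases e : a = l
    · simp [hp, e, r2]
    · simpa [hp, e] using by_contra fun v => e (h1.le (r1.bd_subset v))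
  exact ⟨k1.fa.2.2, k2⟩

end Crest.Agent.X212.Kof81
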