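import Crest.Agent.X212.Kof81.Klp
import Crest.Agent.X212.Sb84.Defs
import Crest.Agent.X212.Nd18.Fce

/-!
# Row 212, F-KL (helper81, text of helper18): the inputs at the walls of `SbStmt`
-/

set_option autoImplicit false
set_option linter.unusedSectionVars false
noncomputable section
open scoped Topology
open Set Function Filter

namespace Crest.Agent.X212.Kof81
open An An.Job M G75 Ins26 Nd18 Fk18

section job
variable {Wi : Type} {X : Mf 4} {A κ lam : Type} [Fintype A] [Fintype κ] [Fintype lam]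
  [DecidableEq lam] {M : Mark X A κ} {W : World M} {L : ML M lam} {Λ : Lns W L}
  {A' h : Type} [Fintype A'] [DecidableEq A'] [Fintype h] {r n : ℕ} {J : Job Wi Λ A' h r n}

theorem WH.elm (H : WH J) (hJ : J.OK) : Sml fun Adm => Fin37.ELM J Adm ∧ Fin37.CHH J Adm :=
  (Sml.all fun a : {a // a ∈ J.hw ∧ ¬M.pin a} => (H a a.2.1 a.2.2).el.and (H a a.2.1 a.2.2).ch).mono
    fun _ k => ⟨fun σ hσ c q y a b x e ha =>
      (k ⟨x, hJ.sub_hw hσ b.ov ha.2.2.2, ha.1⟩).1 σ hσ c q y a b e ha, fun a u v => (k ⟨a, u, v⟩).2⟩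

end job

variable {κ lam : Type} [Fintype κ] [Fintype lam] [DecidableEq lam] {Lm : LM κ lam}

theorem sbP (L : KLx Lm) (hC : AllS Lm fun J => ∀ a, Nonempty ((J.xs a).N.CD (J.xs a).D) → WI J a)
    (h : Sb84.SbStmt' Lm) : SbK Lm := fun y₀ P hP => by
  obtain ⟨C, k⟩ := h y₀ P hP
  refine ⟨C, fun S t R c d ht hc c0 => ?_⟩
  obtain ⟨D, k⟩ := k S t R c d ht hc c0
  refine ⟨D, fun n m j hj => (k n m j hj).mono fun T k Z hZ s l => k Z hZ s l ?_⟩
  have G := gxP ht hc hZ.F (fun e => hZ.c (congrFun e _)) m j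
  exact (L.wh G (fun _ e => absurd e (by simp)) fun _ e => Option.some.inj e ▸
    hC _ _ _ _ _ _ _ G.sc G.ok t.a (cd_of (Z.F.xs_a Z.i) P.C)).elm G.ok

end Crest.Agent.X212.Kof81
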