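import Crest.Agent.X212.Kof81.Defs
import Crest.Agent.X212.Rf65.Pl

/-!
# Row 212, KIT (helper81): strata in two stages; faces with walls of positive scalar curvature
-/

set_option autoImplicit false
set_option linter.unusedSectionVars false
noncomputable section
open scoped Manifold ContDiff Topology
open Set Function Filter

namespace Crest.Agent.X212.Kof81
open An An.Job M Gj67
open Rf65 (Cg H2 FA Fa1 Fc RegO RegW Stra1 Stra2 AnH pO pW hp dmy)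

theorem down {Wi : Type} {P : ((Wi →₀ ℝ) → Prop) → Prop} (k : Sml P) :
    Sml fun A => ∀ A', (∀ q, A' q → A q) → P A' :=
  let ⟨b, h1, h2⟩ := k; ⟨b, h1, fun _ hA A' e => h2 A' fun q hq => hA q (e q hq)⟩

variable {Wi : Type} {X : Mf 4} {A κ lam : Type} [Fintype A] [Fintype κ] [Fintype lam]
  [DecidableEq lam] {M : Mark X A κ} {W : World M} {L : ML M lam} {Λ : Lns W L}
  {A' h : Type} [Fintype A'] [DecidableEq A'] [Fintype h] {r n : ℕ} (J : Job Wi Λ A' h r n)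
  (n₀ : ℤ)

/-- strata of the first stage -/
structure Str1 (F : Ty J) (Adm : (Wi →₀ ℝ) → Prop) (σ : Cel A') (c : M.Cl) (T : J.Stra c) :
    Prop where
  ax : T.Ax Adm σ Obc.Top (Fa1 J c σ)
  fc : ∀ s q y, T.face s → Adm q → Sol σ q y → T.mem s y →
    (∃ z, y.x.Φ z ≠ 0) ∧ (T.Reg s q y → F σ c q y)

/-- the types of the first stage at one face -/
def TyC (F : Ty J) (σ : Cel A') (c : M.Cl) (q : Wi →₀ ℝ) : Prop := ∀ y : J.Obc c, Sol σ q y →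
  ¬y.Top → Fa1 J c σ ∧ y.Tight ∧ F σ c q y

/-- **LEAF STRA in two stages**: the second strata live on an open dense set of perturbations and
may use the types `F` of the first stage and compactness -/
def FaceL (E : Ty J) (σ : Cel A') (c : M.Cl) : Prop := ∃ F : Ty J, Sml fun Adm => St.IsOp Adm →
  (∃ T, Str1 J F Adm σ c T) ∧ ∀ G, Low.Ax ⟨Adm, G⟩ →
    (∀ q, G q → TyC J F σ c q ∧ (c ≠ M.c0 → Cg J c σ Adm q)) → ∃ G', Low.Ax ⟨Adm, G'⟩ ∧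
      ∀ B, St.IsOp B → (∀ q, B q → G' q) → ∃ T, StrOK J n₀ E B σ c T

/-- the leaves that do not depend on the faces -/
structure JL : Prop where
  mdl : MdlL J n₀
  comp : Sml J.Comp
  gen : GenL J
  frx : FrxL J n₀
  wk : WkL J
  gl : GlL J

variable {J n₀} {E E' : Ty J} {Adm : (Wi →₀ ℝ) → Prop} {σ : Cel A'} {c : M.Cl}

theorem FaceL.mono (H : FaceL J n₀ E σ c) (k : ∀ q y, E σ c q y → E' σ c q y) :
    FaceL J n₀ E' σ c :=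
  H.imp fun _ H => H.mono fun _ H ho => ⟨(H ho).1, fun G a b => ((H ho).2 G a b).imp fun _ e =>
    ⟨e.1, fun B a b => (e.2 B a b).imp fun _ t => ⟨t.ax, fun s q y f a b e =>
      (t.fc s q y f a b e).imp id (And.imp id fun u v => k q y (u v))⟩⟩⟩

theorem WallL.mono {a : A'} (H : WallL J n₀ E σ a) (k : ∀ q y, E' σ _ q y → E σ (J.cf a) q y) :
    WallL J n₀ E' σ a :=
  Sml.mono H fun _ H q hq y a b c d e f => H q hq y a b c d e (k q y f)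

theorem StrOK.one {T : J.Stra c} (H : StrOK J n₀ E Adm σ c T) : Str1 J E Adm σ c T :=
  ⟨{ H.ax with face := fun s q y f a b e => (H.ax.face s q y f a b e).imp_left And.right },
    fun s q y f a b e => (H.fc s q y f a b e).imp_right And.right⟩

/-- one stage -/
theorem StrL.face (H : StrL J n₀ E σ c) : FaceL J n₀ E σ c :=
  ⟨E, (down H).mono fun Adm k ho => ⟨(k Adm (fun _ => id) ho).imp fun _ => StrOK.one, fun _ _ _ =>
    ⟨Adm, ⟨fun _ => id, ho, fun _ _ q a b => ⟨q, b, a⟩⟩, fun B a b => k B b a⟩⟩⟩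

/-- no solutions -/
theorem StrL.of_not (H : ∀ q (y : J.Obc c), ¬Sol σ q y) : StrL J n₀ E σ c :=
  .of fun _ _ => ⟨⟨Empty, Empty.elim, Empty.elim, Empty.elim, Empty.elim, fun _ => Empty,
    fun _ _ => Empty, fun s => s.elim, fun {s} => s.elim⟩,
    ⟨inferInstance, fun s => s.elim, fun s => s.elim, fun q y _ k => (H q y k).elim, fun s => s.elim,
      fun s => s.elim, fun s => s.elim, fun s => s.elim, fun s => s.elim, fun s => s.elim,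
      fun s => s.elim⟩, fun s => s.elim⟩

theorem choose_T {P : ∀ (_ : Cel A') c, J.Stra c → Prop} (hn : J.𝒦.Nonempty)
    (H : ∀ σ ∈ J.𝒦, ∀ c, ∃ T, P σ c T) :
    ∃ T : Cel A' → ∀ c, J.Stra c, ∀ σ ∈ J.𝒦, ∀ c, P σ c (T σ c) := by
  choose T hT using H
  classical
  exact ⟨fun σ => if e : σ ∈ J.𝒦 then T σ e else T _ hn.some_mem, fun σ e c => by
    simpa only [dif_pos e] using hT σ e c⟩

/-- genericity in the first stage -/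
theorem idl1 (K : J.Kit) (ho : St.IsOp K.Adm) (hc : J.Comp K.Adm)
    (H : ∀ σ ∈ J.𝒦, ∀ c, Str1 J E K.Adm σ c (K.T σ c)) : K.idl.Ax := by
  have : Finite M.Cl := Subtype.finite
  have := fun (σ : J.𝒦) c => (H σ σ.2 c).ax.fin
  have fin : Finite K.S := inferInstance
  have rk : ∀ {s s' : K.S}, K.key s < K.key s' → K.idl.rank s' < K.idl.rank s := fun {s s'} e =>
    ncard_lt_ncard ⟨fun _ ht => e.trans ht, fun ht => lt_irrefl (K.key s') (ht e)⟩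
  refine ⟨fin, fun s => (H _ s.1.2 _).ax.finJ _, fun s => (H _ s.1.2 _).ax.ax _, ho,
    fun s j i q y x ha hy => (H _ s.1.2 _).ax.sol _ j i q y x ha hy.1 hy.2,
    fun s j q y ha hy => (H _ s.1.2 _).ax.dens _ j q y ha hy.1 hy.2,
    fun s q y hf ha hy => (H _ s.1.2 _).ax.kill _ q y hf ha hy.1 hy.2, ?_⟩
  rintro ⟨⟨σ, hσ⟩, c, s⟩ q₀ ha α 𝒰 q y hq hy
  have hT := fun c => (H σ hσ c).ax
  have hy' := hy.mono fun i hi => (⟨hi.1, hi.2.1⟩ : K.Adm (q i) ∧ Sol σ (q i) (y i))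
  have he := hy.mono fun i hi => (hT c).en s _ _ hi.1 hi.2.1 hi.2.2
  rcases hc σ hσ q₀ ha α 𝒰 q c y hq hy' with ⟨y₀, h1, h2 | ⟨h2, ε, h3, h4⟩⟩ | ⟨c₀, y₀, h1, h2, h3⟩
  · rcases (hT c).fine s q₀ ha α 𝒰 q y y₀ hq hy h1 h2 with h3 | ⟨s', h3, h4, h5⟩
    · exact .inl ⟨y₀, ⟨h1, h3.1⟩, h3.2⟩
    · refine .inr ⟨⟨⟨σ, hσ⟩, c, s'⟩, y₀, rk ?_, ⟨h1, h4⟩, h5⟩
      refine Prod.Lex.toLex_lt_toLex.2 (.inr ⟨rfl, Prod.Lex.toLex_lt_toLex.2 (.inr ⟨?_, h3⟩)⟩)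
      exact (tendsto_nhds_unique (tendsto_const_nhds.congr' (he.mono fun _ e => e.symm))
        h2.en).trans ((hT c).en s' _ _ ha h1 h4)
  · obtain ⟨s', h5⟩ := (hT c).cover q₀ y₀ ha h1 fun ht => h2 ⟨ht.2.1, fun _ k => by
      obtain rfl := ht.1
      exact k.1.elim⟩
    refine .inr ⟨⟨⟨σ, hσ⟩, c, s'⟩, y₀, rk ?_, ⟨h1, h5⟩,
      fun hf => (h2 ((hT c).face s' q₀ y₀ hf ha h1 h5).2).elim⟩
    refine Prod.Lex.toLex_lt_toLex.2 (.inr ⟨rfl, Prod.Lex.toLex_lt_toLex.2 (.inl ?_)⟩)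
    obtain ⟨i, h6, h7⟩ := (he.and h4).exists
    have h8 := (hT c).en s' _ _ ha h1 h5
    show (K.T σ c).en s < (K.T σ c).en s'
    linarith
  · obtain ⟨s', h5⟩ := (hT c₀).cover q₀ y₀ ha h2 fun t => h1.2 (t.1 ▸ empty_subset _)
    refine .inr ⟨⟨⟨σ, hσ⟩, c₀, s'⟩, y₀,
      rk (Prod.Lex.toLex_lt_toLex.2 (.inl (ncard_lt_ncard h1))), ⟨h2, h5⟩, fun hf _ => ?_⟩
    obtain ⟨⟨h6, a, h7, rfl⟩, h8⟩ := (hT c₀).face s' q₀ y₀ hf ha h2 h5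
    obtain rfl : c = M.c0 := eq_c0 h1 (cf_sub a)
    obtain ⟨z, hz⟩ := ((H σ hσ _).fc s' q₀ y₀ hf ha h2 h5).1
    obtain ⟨π, -, hπ⟩ := Cyl58.exists_pc W.toCaps z
    filter_upwards [hy, (h3 rfl (cf_sub a) h6 h8).top ⟨z, hπ, hz⟩] with i h9 h10
    exact ((hT _).ntop s _ _ h9.1 h9.2.1 h9.2.2 ⟨rfl, h10⟩).elim

theorem tyC {K : J.Kit} (H : Str1 J E K.Adm σ c (K.T σ c)) (hσ : σ ∈ J.𝒦) {q : Wi →₀ ℝ}
    (hq : K.G q) : TyC J E σ c q := fun y hy ht => by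
  obtain ⟨s, hs⟩ := H.ax.cover q y hq.1 hy ht
  have hr := hq.2 σ hσ c s y hy hs
  have hf : (K.T σ c).face s := by_contra fun hf => H.ax.kill s q y hf hq.1 hy hs hr
  have := H.ax.face s q y hf hq.1 hy hs
  exact ⟨this.1, this.2, (H.fc s q y hf hq.1 hy hs).2 hr⟩

/-- compactness of the broken solutions -/
theorem cg {q : Wi →₀ ℝ} (hc : J.Comp Adm) (hq : Adm q) (ht : ∀ c, TyC J E σ c q) (hσ : σ ∈ J.𝒦)
    (h0 : c ≠ M.c0) : Cg J c σ Adm q := fun α 𝒰 u y h1 h2 => by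
  rcases hc σ hσ q hq α 𝒰 u c y h1 h2 with ⟨y₀, k, e⟩ | ⟨c₀, y₀, k1, k, -⟩
  · exact ⟨y₀, k, e.resolve_right fun e => e.1 (ht c y₀ k fun t => h0 t.1).2.1⟩
  · obtain ⟨-, a, -, rfl⟩ := (ht c₀ y₀ k fun t => k1.2 (t.1 ▸ empty_subset _)).1
    exact (h0 (eq_c0 k1 (cf_sub a))).elim

/-- the second strata -/
theorem two (hm : MdlL J n₀) (hc : Sml J.Comp) (hn : J.𝒦.Nonempty)
    (hf : ∀ σ ∈ J.𝒦, ∀ c, FaceL J n₀ E σ c) : Sml fun Adm => St.IsOp Adm → ∃ G, Low.Ax ⟨Adm, G⟩ ∧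
      ∃ T : Cel A' → ∀ c, J.Stra c, ∀ σ ∈ J.𝒦, ∀ c, StrOK J n₀ E G σ c (T σ c) := by
  have : Finite M.Cl := Subtype.finite
  obtain ⟨D, -⟩ := hm
  choose! F hF using hf
  refine (hc.and (Sml.all fun x : J.𝒦 × M.Cl => hF x.1 x.1.2 x.2)).mono fun Adm k ho => ?_
  obtain ⟨T, hT⟩ := choose_T (P := Str1 J (fun σ c => F σ c σ c) Adm) hn fun σ e c =>
    (k.2 (⟨σ, e⟩, c) ho).1.imp fun _ t => ⟨t.ax, t.fc⟩
  let K : J.Kit := ⟨D, Adm, T, fun _ _ _ _ _ _ => False⟩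
  have lw : Low.Ax ⟨Adm, K.G⟩ := K.G_eq ▸ (idl1 K ho k.1 hT).low
  choose G' h1 h2 using fun x : J.𝒦 × M.Cl => (k.2 x ho).2 _ lw fun q hq =>
    have t := fun c => tyC (K := K) (hT _ x.1.2 c) x.1.2 hq
    ⟨t _, cg k.1 hq.1 t x.1.2⟩
  obtain ⟨G, h3, h4⟩ := Gen.all ho fun x => Gen.of (h1 x)
  exact ⟨G, h3, choose_T hn fun σ e c => h2 (⟨σ, e⟩, c) G h3.op fun q hq => h4 q hq _⟩

/-- **types of ideal solutions** (no gluing) -/
theorem ty2 (hJ : J.OK) (hm : MdlL J n₀) (hc : Sml J.Comp)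
    (hf : ∀ σ ∈ J.𝒦, ∀ c, FaceL J n₀ E σ c) : GV (TyAt J n₀ E) := by
  rcases J.𝒦.eq_empty_or_nonempty with e | hn
  · exact .of fun _ ho => (Gen.adm ho).mono fun _ _ _ σ hσ => (e.le hσ).elim
  refine ((down hc).and (two hm hc hn hf)).mono fun Adm k ho => ?_
  obtain ⟨D, hD⟩ := hm
  obtain ⟨G, h1, T, hT⟩ := k.2 ho
  exact ⟨_, h1.trans (ax1 hJ hD h1.op (k.1 G h1.le) hT).low, fun q =>
    tyAt hJ hD h1.op (k.1 G h1.le) hT⟩

/-- **the kit** -/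
theorem kit2 (hJ : J.OK) (H : JL J n₀) (hn : J.𝒦.Nonempty) (hf : ∀ σ ∈ J.𝒦, ∀ c, FaceL J n₀ E σ c)
    (hw : ∀ σ ∈ J.𝒦, ∀ a ∈ J.wa σ, WallL J n₀ E σ a) :
    GV fun q => ∃ K : J.Kit, K.Ax ∧ K.GG q ∧ K.n₀ = n₀ ∧ TyAt J n₀ E q := by
  refine ((down (H.comp.and (Sml.all fun x : {x : J.𝒦 × A' // x.2 ∈ J.wa x.1} =>
    hw _ x.1.1.2 _ x.2))).and (two H.mdl H.comp hn hf)).mono fun Adm k ho => ?_
  obtain ⟨D, hD⟩ := H.mdl
  obtain ⟨G, h1, T, hT⟩ := k.2 ho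
  obtain ⟨kc, kw⟩ := k.1 G h1.le
  have a1 := ax1 hJ hD h1.op kc hT
  have ax : (kit D G T).Ax := ⟨a1.toAx0, fun σ hσ a ha => by
    by_cases f : Fa J D.n₀ σ (J.cf a) ∧ J.unc (J.cf a) = univ
    swap
    · exact .inr ⟨fun s e => f e.2, fun _ _ _ _ e => f e.1⟩
    obtain ⟨w1, w2, w3⟩ := H.wk (J.cf a) ⟨empty_subset _, fun x hx hp => ((f.1.2.1 hx).2 hp).elim⟩
      (fun x hx => hJ.mem a x hx (f.1.2.1 hx).2) f.2
    refine .inl (H.gl _ σ a ⟨by norm_num, a1, hσ, ha, ?_, hD.lk σ hσ, w1, w2, w3,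
      fun q₀ hq y h1' h2 h3 => ?_⟩)
    · funext α 𝒰 u y
      exact propext (and_iff_right f)
    have t := tyAt hJ hD h1.op kc hT hq σ hσ _ y h1' fun e => cf_ne ha e.1
    obtain ⟨U, Up, R, d, δ, e1, e2⟩ := kw ⟨(⟨σ, hσ⟩, a), ha⟩ q₀ hq.1 y h1' h2 t.2.2.1 f.2 t.1
      t.2.2.2.2 h3
    have g := H.gen σ a U Up R d q₀ δ e2.ok
    exact ⟨U, Up, R, d, δ, e1, e2, g, t.1.1 ▸ H.frx σ a U Up R d q₀ δ e2.ok g,
      hD.chg G σ a U Up R d q₀ δ e2.ok g⟩⟩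
  exact ⟨_, h1.trans ax.gg, fun q hq => ⟨_, ax, hq, hD.n₀, tyAt hJ hD h1.op kc hT hq.1⟩⟩

/-! ### faces with walls of positive scalar curvature -/

variable (J c) (δ : ℝ) (sh : Set A') (σ n₀)

/-- regular abelian face objects -/
structure TyF (q : Wi →₀ ℝ) (y : J.Obc c) (x : A) : Prop where
  fa : FA J c σ n₀ y x
  n : n₀ + dim σ = 1
  ro : RegO J c δ sh σ q y x
  rw : RegW J c δ sh σ q y x
  dz : Rf65.dz (J.xs x).D (y.β x true) = 1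
  dm : dmy δ y (pW J c sh σ x) = 2

variable {J c δ sh σ n₀} {Tr : (Wi →₀ ℝ) → J.Obc c → Prop}

theorem FaceL.of (h1 : ∀ Adm, Stra1 J c δ sh σ Adm n₀) (h2 : ∀ Adm, Stra2 J c δ sh σ Adm n₀ Tr)
    (H : Sml fun Adm => St.IsOp Adm → H2 J c δ sh σ Adm n₀ Tr ∧ ∀ q y x, Adm q → Sol σ q y →
      TyF J n₀ σ c δ sh q y x → Tr q y → E σ c q y) : FaceL J n₀ E σ c := by
  refine ⟨fun σ c q y => ∃ x, Fc J c σ n₀ y x ∧ (¬y.TF (hp x false) →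
    Rf65.Ok δ y (pO J c sh σ x) ∧ RegO J c δ sh σ q y x), H.mono fun Adm H ho => ⟨?_, fun G a b => ?_⟩⟩
  · obtain ⟨T, k1, k2⟩ := h1 Adm (H ho).1.toH1
    refine ⟨T, k1, fun s q y f a b e => ?_⟩
    obtain ⟨x, k3, k4⟩ := k2 s q y f a b e
    exact ⟨k3.2.2.2.2.imp fun _ => And.right, fun t => ⟨x, k3, k4 t⟩⟩
  · obtain ⟨T, G', k0, k⟩ := h2 Adm (H ho).1 G a fun q hq =>
      ⟨fun y u v => ((b q hq).1 y u v).2.2, (b q hq).2⟩
    refine ⟨G', k0, fun B _ hB => ⟨T, (k B hB).1, fun s q y f a b e => ?_⟩⟩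
    obtain ⟨x, k1, k2, k3, k4, k5⟩ := (k B hB).2 s q y f a b e
    have a' := k0.le q (hB q a)
    have t := (H ho).1.num q y x a' b k1.1
    have k6 := ((k B hB).1.face s q y f a b e).1.1
    exact ⟨k1.1.2.2.2.2.imp fun _ => And.right, t.1, fun _ => (H ho).2 q y x a' b
      ⟨k1, k6, k3, k4, (t.2.2 k1.2.1 k2).1, (t.2.2 k1.2.1 k2).2.2.1.trans (by omega)⟩ k5⟩

theorem WallL.of {a : A'} (hA : AnH J (J.cf a) δ sh σ) (hW : W.Nrm) (hΛ : Λ.Nrm) (ha : a ∈ J.wa σ)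
    (hw : Rf65.WallL J a δ sh σ n₀) (hE : ∀ q y, E σ _ q y → ∃ x, TyF J n₀ σ (J.cf a) δ sh q y x) :
    WallL J n₀ E σ a := Sml.of fun _ q _ y h1 _ _ h2 _ h3 h4 =>
  let ⟨x, t⟩ := hE q y h3; hw hA hW hΛ ha q y x h1 t.fa t.rw h2 t.n t.dz t.dm h4

end Crest.Agent.X212.Kof81
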